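import Vale.Agent.P146.H332.CDef

/-!
Parameters with a signed tilt: `-1 ≤ θ ≤ 1`. The law `P_θ` with `θ = -1`, `t0 = 0` is the law with
the free (Gaussian) position at the time `t1` and the exponent `x` on `[t1, 1]`.
-/

namespace Vale.Agent.P146.R1C

/-- The conditions on the parameters, signed tilt. -/
structure Par.OkS (q : Par) : Prop where
  x0 : 0 < q.x
  x1 : q.x ≤ 1
  θ0 : -1 ≤ q.θ
  θ1 : q.θ ≤ 1
  h0 : 0 ≤ q.t0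
  h01 : q.t0 ≤ q.t1
  h1 : q.t1 ≤ q.s1
  h12 : q.s1 ≤ q.s2
  h2 : q.s2 ≤ 1

lemma Par.Ok.toS {q : Par} (h : q.Ok) : q.OkS :=
  ⟨h.x0, h.x1, by linarith [h.θ0], h.θ1, h.h0, h.h01, h.h1, h.h12, h.h2⟩

lemma Par.OkS.abs_le {q : Par} (h : q.OkS) : |q.θ| ≤ 1 := _root_.abs_le.2 ⟨h.θ0, h.θ1⟩

lemma Par.OkS.sq_le {q : Par} (h : q.OkS) : q.θ ^ 2 ≤ 1 := by
  have := h.θ0
  have := h.θ1
  nlinarith

lemma Par.OkS.four_le {q : Par} (h : q.OkS) : q.θ ^ 4 ≤ 1 := by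
  have h2 := h.sq_le
  have h3 := sq_nonneg q.θ
  calc q.θ ^ 4 = (q.θ ^ 2) ^ 2 := by ring
    _ ≤ 1 := pow_le_one₀ h3 h2

end Vale.Agent.P146.R1C
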