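import Vale.Agent.P146.H712.Pos
import Vale.Agent.P146.H797.OkS

/-!
The results of `H712.Pos` for signed tilts `-1 ≤ θ ≤ 1` (`Par.OkS` in the place of `Par.Ok`).
-/

open MeasureTheory ProbabilityTheory

namespace Vale.Agent.P146.H712

open Vale.Agent.P157.Lv Vale.Agent.P146.R1 Vale.Agent.P146.R1C

set_option linter.unusedSectionVars false
set_option linter.unusedSimpArgs false

variable {κ : Type} [Fintype κ] [DecidableEq κ]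

variable {f f' : (κ → ℝ) → ℝ} {j : K4 κ} {t0 t1 s1 s2 : ℝ}

section par

variable (q : Par)

variable {q}

theorem sum_k0_s (hq : q.OkS) (R : Finset κ) (g : κ → ℝ) :
    ∑ j ∈ lf R, (k0 q (bl j) * g (bs j)) ^ 2 = q.t0 * ∑ e ∈ R, g e ^ 2 := sum_q0 hq.h0 R g
theorem sum_k1_s (hq : q.OkS) (R : Finset κ) (g : κ → ℝ) :
    ∑ j ∈ lf R, (k1 q (bl j) * g (bs j)) ^ 2 = q.t1 * ∑ e ∈ R, g e ^ 2 := sum_q1 hq.h0 hq.h01 R g
theorem sum_k2_s (hq : q.OkS) (R : Finset κ) (g : κ → ℝ) :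
    ∑ j ∈ lf R, (k2 q (bl j) * g (bs j)) ^ 2 = q.s1 * ∑ e ∈ R, g e ^ 2 :=
  sum_q2 hq.h0 hq.h01 hq.h1 R g
theorem sum_k3_s (hq : q.OkS) (R : Finset κ) (g : κ → ℝ) :
    ∑ j ∈ lf R, (k3 q (bl j) * g (bs j)) ^ 2 = q.s2 * ∑ e ∈ R, g e ^ 2 :=
  sum_q3 hq.h0 hq.h01 hq.h1 hq.h12 R g

end par

end Vale.Agent.P146.H712
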