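import Vale.Agent.P146.H706.LawK
import Vale.Agent.P146.H797.H712_Pos
import Vale.Agent.P146.H797.OkS

/-!
The results of `H706.LawK` for signed tilts `-1 ≤ θ ≤ 1` (`Par.OkS` in the place of `Par.Ok`).
-/

set_option linter.all false

open MeasureTheory ProbabilityTheory Finset

namespace Vale.Agent.P146.R1C

open Vale.Agent.P157.Lv Vale.Agent.P146.H425 Vale.Agent.P146.H712 Vale.Agent.P146.R1
  Vale.Agent.P146.H706

section gen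

variable {κ : Type} [Fintype κ] [DecidableEq κ] {F : (κ → ℝ) → ℝ} {D : κ → (κ → ℝ) → ℝ}
  {B L : ℝ} {q : Par} {R : Finset κ}

/-- the row gradient of the log density -/
theorem psi_sq_le_s (hq : q.OkS) (w : K4 κ → ℝ) :
    ∑ j ∈ lf R, psi' q F D j w ^ 2 ≤ 3 * q.x ^ 2 * (grF q.x q.s2 F D R (P3 q w) +
      (q.θ ^ 2 * grF q.x q.t1 F D R (P1 q w) + q.θ ^ 2 * grF q.x q.t0 F D R (P0 q w))) := by
  have h3 := sum_k3_s hq R (fun e => dd q.x q.s2 F D e (P3 q w))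
  have h1 := sum_k1_s hq R (fun e => dd q.x q.t1 F D e (P1 q w))
  have h0 := sum_k0_s hq R (fun e => dd q.x q.t0 F D e (P0 q w))
  have hle : ∑ j ∈ lf R, psi' q F D j w ^ 2 ≤
      ∑ j ∈ lf R, (3 * q.x ^ 2 * (k3 q (bl j) * dd q.x q.s2 F D (bs j) (P3 q w)) ^ 2 +
        (3 * q.x ^ 2 * q.θ ^ 2 * (k1 q (bl j) * dd q.x q.t1 F D (bs j) (P1 q w)) ^ 2 +
          3 * q.x ^ 2 * q.θ ^ 2 * (k0 q (bl j) * dd q.x q.t0 F D (bs j) (P0 q w)) ^ 2)) := by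
    refine sum_le_sum fun j _ => ?_
    unfold psi'
    set a := k3 q (bl j) * dd q.x q.s2 F D (bs j) (P3 q w)
    set b := k1 q (bl j) * dd q.x q.t1 F D (bs j) (P1 q w)
    set c := k0 q (bl j) * dd q.x q.t0 F D (bs j) (P0 q w)
    nlinarith [sq_nonneg (q.x * a - q.x * q.θ * b), sq_nonneg (q.x * a + q.x * q.θ * c),
      sq_nonneg (q.x * q.θ * b + q.x * q.θ * c)]
  refine hle.trans ?_
  rw [sum_add_distrib, sum_add_distrib, ← mul_sum, ← mul_sum, ← mul_sum, h3, h1, h0]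
  have g3 := grF_nonneg (F := F) (D := D) (R := R) q.x q.s2 (P3 q w)
  have g1 := grF_nonneg (F := F) (D := D) (R := R) q.x q.t1 (P1 q w)
  have g0 := grF_nonneg (F := F) (D := D) (R := R) q.x q.t0 (P0 q w)
  have hs2 : q.s2 ≤ 1 := hq.h2
  have ht1 : q.t1 ≤ 1 := hq.h1.trans (hq.h12.trans hq.h2)
  have ht0 : q.t0 ≤ 1 := hq.h01.trans ht1
  have hx2 : 0 ≤ 3 * q.x ^ 2 := by positivity
  have hx2' : 0 ≤ 3 * q.x ^ 2 * q.θ ^ 2 := by positivity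
  have e3 : q.s2 * grF q.x q.s2 F D R (P3 q w) ≤ 1 * grF q.x q.s2 F D R (P3 q w) :=
    mul_le_mul_of_nonneg_right hs2 g3
  have e1 : q.t1 * grF q.x q.t1 F D R (P1 q w) ≤ 1 * grF q.x q.t1 F D R (P1 q w) :=
    mul_le_mul_of_nonneg_right ht1 g1
  have e0 : q.t0 * grF q.x q.t0 F D R (P0 q w) ≤ 1 * grF q.x q.t0 F D R (P0 q w) :=
    mul_le_mul_of_nonneg_right ht0 g0
  have f3 := mul_le_mul_of_nonneg_left e3 hx2
  have f1 := mul_le_mul_of_nonneg_left e1 hx2'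
  have f0 := mul_le_mul_of_nonneg_left e0 hx2'
  unfold grF at *
  linarith

/-- the log density satisfies the hypotheses of the law change -/
theorem lf_psi_s (h : C11 F D B L) (hq : q.OkS) {Bd l : ℝ} (hR : ∀ z, ∑ e ∈ R, D e z ^ 2 ≤ Bd)
    (hl0 : 0 ≤ l) (hl : 9 * q.x ^ 2 * Bd ≤ l ^ 2) :
    LF (lf R) (psi q F) (psi' q F D) l where
  lip := lip_psi h hq.x0
  pd j _ := pd_psi h hq.x0 j
  eg j _ := eg_psi' h hq.x0 j
  nn := hl0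
  le w := by
    refine (psi_sq_le_s hq w).trans (le_trans ?_ hl)
    have g3 := grF_le (R := R) h hq.x0 hR q.s2 (P3 q w)
    have g1 := grF_le (R := R) h hq.x0 hR q.t1 (P1 q w)
    have g0 := grF_le (R := R) h hq.x0 hR q.t0 (P0 q w)
    have hBd : 0 ≤ Bd := (grF_nonneg _ _ _).trans g0
    have hθ : q.θ ^ 2 ≤ 1 := hq.sq_le
    have k1 : q.θ ^ 2 * grF q.x q.t1 F D R (P1 q w) ≤ 1 * Bd :=
      mul_le_mul hθ g1 (grF_nonneg _ _ _) zero_le_one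
    have k0 : q.θ ^ 2 * grF q.x q.t0 F D R (P0 q w) ≤ 1 * Bd :=
      mul_le_mul hθ g0 (grF_nonneg _ _ _) zero_le_one
    have : 3 * q.x ^ 2 * (grF q.x q.s2 F D R (P3 q w) + (q.θ ^ 2 * grF q.x q.t1 F D R (P1 q w) +
        q.θ ^ 2 * grF q.x q.t0 F D R (P0 q w))) ≤ 3 * q.x ^ 2 * (3 * Bd) :=
      mul_le_mul_of_nonneg_left (by linarith) (by positivity)
    linarith

/-- **(LC1)** for the law of R1 -/
theorem law_up_s (h : C11 F D B L) (hq : q.OkS) {Bd l : ℝ} (hR : ∀ z, ∑ e ∈ R, D e z ^ 2 ≤ Bd)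
    (hl0 : 0 ≤ l) (hl : 9 * q.x ^ 2 * Bd ≤ l ^ 2) (p : ℕ) (hp : ((p : ℝ) + 1) ^ 2 * l ^ 2 ≤ 1)
    {f : (K4 κ → ℝ) → ℝ} (hf : EG f) {K : ℝ} (h0 : ∀ w, 0 ≤ f w) (hK : ∀ w, f w ≤ K) :
    Ew q F f ≤ 2 * Ew q F (Av (lf R) f) + 3 * K / 2 ^ p * Ew q F (fun _ => 1) := by
  have := (lf_psi_s h hq hR hl0 hl).LC1 p hp hf h0 hK
  unfold Ew
  simpa only [mul_one, dens_eq] using this

/-- **(LC1)** for the law of R1 -/
theorem law_low_s (h : C11 F D B L) (hq : q.OkS) {Bd l : ℝ} (hR : ∀ z, ∑ e ∈ R, D e z ^ 2 ≤ Bd)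
    (hl0 : 0 ≤ l) (hl : 9 * q.x ^ 2 * Bd ≤ l ^ 2) (p : ℕ) (hp : ((p : ℝ) + 1) ^ 2 * l ^ 2 ≤ 1)
    {f : (K4 κ → ℝ) → ℝ} (hf : EG f) {K : ℝ} (h0 : ∀ w, 0 ≤ f w) (hK : ∀ w, f w ≤ K) :
    Ew q F (Av (lf R) f) ≤ 2 * Ew q F f + 3 * K / 2 ^ p * Ew q F (fun _ => 1) := by
  have := (lf_psi_s h hq hR hl0 hl).LC1' p hp hf h0 hK
  unfold Ew
  simpa only [mul_one, dens_eq] using this

/-- the square of the row gradient under the clean law -/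
theorem psi_four_le_s (h : C11 F D B L) (hq : q.OkS) {φ : (K4 κ → ℝ) → ℝ} (hφ : EG φ)
    (hφ0 : ∀ w, 0 ≤ φ w) :
    ∫ w, φ w * (∑ j ∈ lf R, psi' q F D j w ^ 2) ^ 2 ∂(gI (K4 κ)) ≤
      27 * q.x ^ 4 * ((∫ w, φ w * grF q.x q.s2 F D R (P3 q w) ^ 2 ∂(gI (K4 κ))) +
        (q.θ ^ 4 * (∫ w, φ w * grF q.x q.t1 F D R (P1 q w) ^ 2 ∂(gI (K4 κ))) +
          q.θ ^ 4 * ∫ w, φ w * grF q.x q.t0 F D R (P0 q w) ^ 2 ∂(gI (K4 κ)))) := by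
  have e : ∀ t, EG (grF q.x t F D R) := fun t => eg_grF h hq.x0 t
  have i3 : Integrable (fun w => φ w * grF q.x q.s2 F D R (P3 q w) ^ 2) (gI (K4 κ)) :=
    (hφ.mul ((eg_P3 (e _)).pow 2)).integrable
  have i1 : Integrable (fun w => q.θ ^ 4 * (φ w * grF q.x q.t1 F D R (P1 q w) ^ 2)) (gI (K4 κ)) :=
    (hφ.mul ((eg_P1 (e _)).pow 2)).integrable.const_mul _
  have i0 : Integrable (fun w => q.θ ^ 4 * (φ w * grF q.x q.t0 F D R (P0 q w) ^ 2)) (gI (K4 κ)) :=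
    (hφ.mul ((eg_P0 (e _)).pow 2)).integrable.const_mul _
  have i10 : Integrable (fun w => q.θ ^ 4 * (φ w * grF q.x q.t1 F D R (P1 q w) ^ 2) +
      q.θ ^ 4 * (φ w * grF q.x q.t0 F D R (P0 q w) ^ 2)) (gI (K4 κ)) := i1.add i0
  have eS : EG fun w => (∑ j ∈ lf R, psi' q F D j w ^ 2) ^ 2 :=
    (EG.sum _ fun j _ => (eg_psi' h hq.x0 j).pow 2).pow 2
  rw [← integral_const_mul (q.θ ^ 4), ← integral_const_mul (q.θ ^ 4), ← integral_add i1 i0,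
    ← integral_add i3 i10, ← integral_const_mul]
  refine integral_mono (hφ.mul eS).integrable ((i3.add i10).const_mul _) fun w => ?_
  have h1 := psi_sq_le_s (R := R) (F := F) (D := D) hq w
  have h2 : 0 ≤ ∑ j ∈ lf R, psi' q F D j w ^ 2 := sum_nonneg fun _ _ => sq_nonneg _
  have g3 := grF_nonneg (F := F) (D := D) (R := R) q.x q.s2 (P3 q w)
  have g1 := grF_nonneg (F := F) (D := D) (R := R) q.x q.t1 (P1 q w)
  have g0 := grF_nonneg (F := F) (D := D) (R := R) q.x q.t0 (P0 q w)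
  show φ w * (∑ j ∈ lf R, psi' q F D j w ^ 2) ^ 2 ≤ 27 * q.x ^ 4 *
    (φ w * grF q.x q.s2 F D R (P3 q w) ^ 2 + (q.θ ^ 4 * (φ w * grF q.x q.t1 F D R (P1 q w) ^ 2) +
      q.θ ^ 4 * (φ w * grF q.x q.t0 F D R (P0 q w) ^ 2)))
  set S := ∑ j ∈ lf R, psi' q F D j w ^ 2
  set a := grF q.x q.s2 F D R (P3 q w)
  set b := grF q.x q.t1 F D R (P1 q w)
  set c := grF q.x q.t0 F D R (P0 q w)
  have h3 : S ^ 2 ≤ (3 * q.x ^ 2 * (a + (q.θ ^ 2 * b + q.θ ^ 2 * c))) ^ 2 :=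
    pow_le_pow_left₀ h2 h1 2
  have h4 : (a + (q.θ ^ 2 * b + q.θ ^ 2 * c)) ^ 2 ≤ 3 * (a ^ 2 + (q.θ ^ 4 * b ^ 2 + q.θ ^ 4 * c ^ 2)) := by
    nlinarith [sq_nonneg (a - q.θ ^ 2 * b), sq_nonneg (a - q.θ ^ 2 * c),
      sq_nonneg (q.θ ^ 2 * b - q.θ ^ 2 * c)]
  have h5 : (3 * q.x ^ 2 * (a + (q.θ ^ 2 * b + q.θ ^ 2 * c))) ^ 2 ≤
      27 * q.x ^ 4 * (a ^ 2 + (q.θ ^ 4 * b ^ 2 + q.θ ^ 4 * c ^ 2)) := by
    have h6 : 0 ≤ 9 * q.x ^ 4 := by positivity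
    have := mul_le_mul_of_nonneg_left h4 h6
    nlinarith
  have := mul_le_mul_of_nonneg_left (h3.trans h5) (hφ0 w)
  calc _ ≤ _ := this
    _ = _ := by ring

/-- **the law change in a quartic functional of the rows** -/
theorem lam_le_s (h : C11 F D B L) (hq : q.OkS) {Bd l : ℝ} (hR : ∀ z, ∑ e ∈ R, D e z ^ 2 ≤ Bd)
    (hl0 : 0 ≤ l) (hl : 9 * q.x ^ 2 * Bd ≤ l ^ 2) (hl1 : 16 * l ^ 2 ≤ 1)
    {q' : Type} [Fintype q'] {U V X Y : (K4 κ → ℝ) → q' → ℝ} (hU : ∀ i, EG fun w => U w i)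
    (hV : ∀ i, EG fun w => V w i) (hX : ∀ i, EG fun w => X w i) (hY : ∀ i, EG fun w => Y w i)
    {M8 : ℝ} (mU : ∫ w, Av (lf R) (dens q F) w * vs (U w) ^ 4 ∂(gI (K4 κ)) ≤ M8)
    (mV : ∫ w, Av (lf R) (dens q F) w * vs (V w) ^ 4 ∂(gI (K4 κ)) ≤ M8)
    (mX : ∫ w, Av (lf R) (dens q F) w * vs (X w) ^ 4 ∂(gI (K4 κ)) ≤ M8)
    (mY : ∫ w, Av (lf R) (dens q F) w * vs (Y w) ^ 4 ∂(gI (K4 κ)) ≤ M8) :
    |∫ w, dens q F w * (dp (U w) (V w) * dp (X w) (Y w)) ∂(gI (K4 κ)) -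
      ∫ w, Av (lf R) (dens q F) w * (dp (U w) (V w) * dp (X w) (Y w)) ∂(gI (K4 κ))| ≤
      √(2 * √(Ew q F (fun _ => 1) * ∫ w, Av (lf R) (dens q F) w *
        (∑ j ∈ lf R, psi' q F D j w ^ 2) ^ 2 ∂(gI (K4 κ)))) * √M8 := by
  have hψ := lf_psi_s h hq hR hl0 hl
  have ed : ∀ {X Y : (K4 κ → ℝ) → q' → ℝ}, (∀ i, EG fun w => X w i) → (∀ i, EG fun w => Y w i) →
      EG fun w => dp (X w) (Y w) := fun h h' => EG.sum _ fun i _ => (h i).mul (h' i)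
  have h1 := hψ.lc2 hl1 ((ed hU hV).mul (ed hX hY))
  have h2 := quart_sq_le (eg_Av (lf R) (eg_dens (q := q) h hq.x0)) (fun w => (hψ.av_pos w).le)
    hU hV hX hY mU mV mX mY
  have h3 : Ew q F (fun _ => 1) = ∫ w, Real.exp (psi q F w) ∂(gI (K4 κ)) := by
    unfold Ew; simp only [mul_one, dens_eq]
  rw [h3]
  exact h1.trans (mul_le_mul_of_nonneg_left (Real.sqrt_le_sqrt h2) (Real.sqrt_nonneg _))

end gen

end Vale.Agent.P146.R1C
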