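import Vale.Agent.P146.H826.LawP
import Vale.Agent.P146.H797.OkS

/-!
The results of `H826.LawP` for signed tilts `-1 ≤ θ ≤ 1` (`Par.OkS` in the place of `Par.Ok`).
-/

open MeasureTheory ProbabilityTheory

namespace Vale.Agent.P146.R1C

open Vale.Agent.P157.Lv Vale.Agent.P146.H425 Vale.Agent.P146.H712 Vale.Agent.P146.R1

set_option linter.unusedSectionVars false

variable {κ : Type} [Fintype κ] [DecidableEq κ] {t0 t1 s1 s2 s : ℝ} {R R' : Finset κ}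

section one

variable {f : (κ → ℝ) → ℝ}

end one

section avp

variable {f φ g : (κ → ℝ) → ℝ}

end avp

section row

open Vale.Agent.P146.H325 Vale.Agent.P146.H332

variable {n : ℕ} {b : Fin n}

end row

section par

variable {q : Par}

theorem Av_lf_P23_s (hq : q.OkS) {Φ : (κ → ℝ) → (κ → ℝ) → ℝ}
    (hΦ : EG fun w : κ ⊕ κ → ℝ => Φ (fun e => w (Sum.inl e)) (fun e => w (Sum.inr e)))
    (R : Finset κ) (w : K4 κ → ℝ) :
    Av (lf R) (fun w => Φ (P2 q w) (P3 q w)) w =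
      ∫ g, (∫ g', Φ (sw R (P2 q w) (√q.s1 • g))
        (sw R (P3 q w) (√q.s1 • g + √(q.s2 - q.s1) • g')) ∂(gI κ)) ∂(gI κ) :=
  Av_lf_two hΦ hq.h0 hq.h01 hq.h1 R w

variable {f : (κ → ℝ) → ℝ}

lemma Av_lf_P1_s (hq : q.OkS) (hf : EG f) (R : Finset κ) (w : K4 κ → ℝ) :
    Av (lf R) (fun w => f (P1 q w)) w = AvP q.t1 R f (P1 q w) := Av_lf_1 hf hq.h0 hq.h01 R w

lemma Av_lf_P2_s (hq : q.OkS) (hf : EG f) (R : Finset κ) (w : K4 κ → ℝ) :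
    Av (lf R) (fun w => f (P2 q w)) w = AvP q.s1 R f (P2 q w) :=
  Av_lf_2 hf hq.h0 hq.h01 hq.h1 R w

lemma Av_lf_P3_s (hq : q.OkS) (hf : EG f) (R : Finset κ) (w : K4 κ → ℝ) :
    Av (lf R) (fun w => f (P3 q w)) w = AvP q.s2 R f (P3 q w) :=
  Av_lf_3 hf hq.h0 hq.h01 hq.h1 hq.h12 R w

open Vale.Agent.P146.H325 Vale.Agent.P146.H332 in
theorem Av_lf_P23_row_s {n : ℕ} (hq : q.OkS) {Φ : (Pair n → ℝ) → (Pair n → ℝ) → ℝ}
    (hΦ : EG fun w : Pair n ⊕ Pair n → ℝ => Φ (fun e => w (Sum.inl e)) (fun e => w (Sum.inr e)))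
    (b : Fin n) (w : K4 (Pair n) → ℝ) :
    Av (lf (row b)) (fun w => Φ (P2 q w) (P3 q w)) w =
      ∫ y, (∫ y', Φ (put b (√q.s1 • y) (P2 q w))
        (put b (√q.s1 • y + √(q.s2 - q.s1) • y') (P3 q w)) ∂(gI (Fin n))) ∂(gI (Fin n)) :=
  Av_lf_row hΦ hq.h0 hq.h01 hq.h1 b w

end par

end Vale.Agent.P146.R1C
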