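import Vale.Agent.P146.H706.LawS
import Vale.Agent.P146.H797.H706_LawK
import Vale.Agent.P146.H797.H712_Pos
import Vale.Agent.P146.H797.OkS

/-!
The results of `H706.LawS` for signed tilts `-1 ≤ θ ≤ 1` (`Par.OkS` in the place of `Par.Ok`).
-/

set_option linter.all false

open MeasureTheory ProbabilityTheory Finset

namespace Vale.Agent.P146.R1C

open Vale.Agent.P157.Lv Vale.Agent.P146.H425 Vale.Agent.P146.H325 Vale.Agent.P146.H332
  Vale.Agent.P146.H712 Vale.Agent.P146.R1 Vale.Agent.P146.H706 Vale.Agent.P146.H522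

variable {n : ℕ} {k x s : ℝ} {q : Par}

/-- the transfer `E → E~` for the SK model -/
theorem law_up_sk_s (hq : q.OkS) (b b' : Fin n) (p : ℕ)
    (hp : ((p : ℝ) + 1) ^ 2 * (18 * q.x ^ 2 * k ^ 2 * n) ≤ 1)
    {f : (K4 (Pair n) → ℝ) → ℝ} (hf : EG f) {K : ℝ} (h0 : ∀ w, 0 ≤ f w) (hK : ∀ w, f w ≤ K) :
    Ew q (lz k SkS) f ≤ 2 * Ew q (lz k SkS) (Av (lf (row b ∪ row b')) f) +
      3 * K / 2 ^ p * Ew q (lz k (SkS (n := n))) (fun _ => 1) := by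
  have hn : 0 ≤ 18 * q.x ^ 2 * k ^ 2 * n := by positivity
  have e : √(18 * q.x ^ 2 * k ^ 2 * n) ^ 2 = 18 * q.x ^ 2 * k ^ 2 * n := Real.sq_sqrt hn
  exact law_up_s (l := √(18 * q.x ^ 2 * k ^ 2 * n)) c11_sk hq (Dsk_rows b b') (Real.sqrt_nonneg _)
    (by rw [e]; linarith) p (by rw [e]; exact hp) hf h0 hK

/-- the transfer `E~ → E` for the SK model -/
theorem law_low_sk_s (hq : q.OkS) (b b' : Fin n) (p : ℕ)
    (hp : ((p : ℝ) + 1) ^ 2 * (18 * q.x ^ 2 * k ^ 2 * n) ≤ 1)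
    {f : (K4 (Pair n) → ℝ) → ℝ} (hf : EG f) {K : ℝ} (h0 : ∀ w, 0 ≤ f w) (hK : ∀ w, f w ≤ K) :
    Ew q (lz k SkS) (Av (lf (row b ∪ row b')) f) ≤ 2 * Ew q (lz k SkS) f +
      3 * K / 2 ^ p * Ew q (lz k (SkS (n := n))) (fun _ => 1) := by
  have hn : 0 ≤ 18 * q.x ^ 2 * k ^ 2 * n := by positivity
  have e : √(18 * q.x ^ 2 * k ^ 2 * n) ^ 2 = 18 * q.x ^ 2 * k ^ 2 * n := Real.sq_sqrt hn
  exact law_low_s (l := √(18 * q.x ^ 2 * k ^ 2 * n)) c11_sk hq (Dsk_rows b b') (Real.sqrt_nonneg _)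
    (by rw [e]; linarith) p (by rw [e]; exact hp) hf h0 hK

/-- the fourth moment of the row gradient -/
theorem psi_four_sk_s (hq : q.OkS) (b b' : Fin n) {φ : (K4 (Pair n) → ℝ) → ℝ} (hφ : EG φ)
    (hφ0 : ∀ w, 0 ≤ φ w) {M4 : ℝ}
    (m3 : ∀ c, c = b ∨ c = b' →
      ∫ w, φ w * vn (H816.col (AA k q.x q.s2 (P3 q w)) c) ^ 2 ∂(gI (K4 (Pair n))) ≤ M4)
    (m1 : ∀ c, c = b ∨ c = b' →
      ∫ w, φ w * vn (H816.col (AA k q.x q.t1 (P1 q w)) c) ^ 2 ∂(gI (K4 (Pair n))) ≤ M4)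
    (m0 : ∀ c, c = b ∨ c = b' →
      ∫ w, φ w * vn (H816.col (AA k q.x q.t0 (P0 q w)) c) ^ 2 ∂(gI (K4 (Pair n))) ≤ M4) :
    ∫ w, φ w * (∑ j ∈ lf (row b ∪ row b'), psi' q (lz k SkS) (Dsk k) j w ^ 2) ^ 2
      ∂(gI (K4 (Pair n))) ≤ 324 * q.x ^ 4 * k ^ 4 * M4 := by
  have key := psi_four_le_s (R := row b ∪ row b') (c11_sk (n := n) (k := k)) hq hφ hφ0
  have hM4 : 0 ≤ M4 := (integral_nonneg fun w => mul_nonneg (hφ0 w) (sq_nonneg _)).trans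
    (m3 b (Or.inl rfl))
  have one : ∀ (t : ℝ) (P : (K4 (Pair n) → ℝ) → Pair n → ℝ)
      (eP : ∀ {f : (Pair n → ℝ) → ℝ}, EG f → EG fun w => f (P w)),
      (∀ c, c = b ∨ c = b' →
        ∫ w, φ w * vn (H816.col (AA k q.x t (P w)) c) ^ 2 ∂(gI (K4 (Pair n))) ≤ M4) →
      ∫ w, φ w * grF q.x t (lz k SkS) (Dsk k) (row b ∪ row b') (P w) ^ 2 ∂(gI (K4 (Pair n))) ≤
        4 * k ^ 4 * M4 := by
    intro t P eP hm
    have ev : ∀ c, EG fun w => vn (H816.col (AA k q.x t (P w)) c) := fun c => eP (eg_vn_col c)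
    have i1 : Integrable (fun w => φ w * vn (H816.col (AA k q.x t (P w)) b) ^ 2)
      (gI (K4 (Pair n))) := (hφ.mul ((ev b).pow 2)).integrable
    have i2 : Integrable (fun w => φ w * vn (H816.col (AA k q.x t (P w)) b') ^ 2)
      (gI (K4 (Pair n))) := (hφ.mul ((ev b').pow 2)).integrable
    have h1 : ∫ w, φ w * grF q.x t (lz k SkS) (Dsk k) (row b ∪ row b') (P w) ^ 2
        ∂(gI (K4 (Pair n))) ≤ ∫ w, 2 * k ^ 4 * (φ w * vn (H816.col (AA k q.x t (P w)) b) ^ 2 +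
          φ w * vn (H816.col (AA k q.x t (P w)) b') ^ 2) ∂(gI (K4 (Pair n))) := by
      refine integral_mono (hφ.mul ((eP (eg_grF c11_sk hq.x0 t)).pow 2)).integrable
        ((i1.add i2).const_mul _) fun w => ?_
      show φ w * grF q.x t (lz k SkS) (Dsk k) (row b ∪ row b') (P w) ^ 2 ≤ 2 * k ^ 4 *
        (φ w * vn (H816.col (AA k q.x t (P w)) b) ^ 2 +
          φ w * vn (H816.col (AA k q.x t (P w)) b') ^ 2)
      have h2 := grF_rows (k := k) (x := q.x) (s := t) b b' (P w)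
      have h3 := grF_nonneg (F := lz k SkS) (D := Dsk k) (R := row b ∪ row b') q.x t (P w)
      have h4 := pow_le_pow_left₀ h3 h2 2
      set a := vn (H816.col (AA k q.x t (P w)) b)
      set c := vn (H816.col (AA k q.x t (P w)) b')
      have h5 : (k ^ 2 * (a + c)) ^ 2 ≤ 2 * k ^ 4 * (a ^ 2 + c ^ 2) := by
        have h6 : 0 ≤ k ^ 4 := by positivity
        nlinarith [mul_nonneg h6 (sq_nonneg (a - c))]
      have := mul_le_mul_of_nonneg_left (h4.trans h5) (hφ0 w)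
      linarith
    refine h1.trans ?_
    rw [integral_const_mul, integral_add i1 i2]
    have h2 := hm b (Or.inl rfl)
    have h3 := hm b' (Or.inr rfl)
    have h6 : 0 ≤ k ^ 4 := by positivity
    nlinarith
  have k3 := one q.s2 (P3 q) (fun h => eg_P3 h) m3
  have k1 := one q.t1 (P1 q) (fun h => eg_P1 h) m1
  have k0 := one q.t0 (P0 q) (fun h => eg_P0 h) m0
  refine key.trans ?_
  have hθ : q.θ ^ 4 ≤ 1 := hq.four_le
  have hθ0 : 0 ≤ q.θ ^ 4 := by positivity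
  have hk : 0 ≤ 4 * k ^ 4 * M4 := by positivity
  have l1 := mul_le_mul hθ k1 (integral_nonneg fun w => mul_nonneg (hφ0 w) (sq_nonneg _)) zero_le_one
  have l0 := mul_le_mul hθ k0 (integral_nonneg fun w => mul_nonneg (hφ0 w) (sq_nonneg _)) zero_le_one
  have hx : 0 ≤ 27 * q.x ^ 4 := by positivity
  have := mul_le_mul_of_nonneg_left (add_le_add k3 (add_le_add l1 l0)) hx
  refine this.trans (le_of_eq ?_)
  ring

/-- **the law change error** of a general functional in the SK model -/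
theorem lam_gen_sk_s (hq : q.OkS) (b b' : Fin n) (hl : 288 * q.x ^ 2 * k ^ 2 * n ≤ 1)
    {f : (K4 (Pair n) → ℝ) → ℝ} (hf : EG f) {M M4 : ℝ}
    (hM : ∫ w, Av (lf (row b ∪ row b')) (dens q (lz k SkS)) w * f w ^ 2 ∂(gI (K4 (Pair n))) ≤ M)
    (m3 : ∀ c, c = b ∨ c = b' → ∫ w, Av (lf (row b ∪ row b')) (dens q (lz k SkS)) w *
      vn (H816.col (AA k q.x q.s2 (P3 q w)) c) ^ 2 ∂(gI (K4 (Pair n))) ≤ M4)
    (m1 : ∀ c, c = b ∨ c = b' → ∫ w, Av (lf (row b ∪ row b')) (dens q (lz k SkS)) w *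
      vn (H816.col (AA k q.x q.t1 (P1 q w)) c) ^ 2 ∂(gI (K4 (Pair n))) ≤ M4)
    (m0 : ∀ c, c = b ∨ c = b' → ∫ w, Av (lf (row b ∪ row b')) (dens q (lz k SkS)) w *
      vn (H816.col (AA k q.x q.t0 (P0 q w)) c) ^ 2 ∂(gI (K4 (Pair n))) ≤ M4) :
    |∫ w, dens q (lz k SkS) w * f w ∂(gI (K4 (Pair n))) -
      ∫ w, Av (lf (row b ∪ row b')) (dens q (lz k SkS)) w * f w ∂(gI (K4 (Pair n)))| ≤
      √(2 * √(Ew q (lz k (SkS (n := n))) (fun _ => 1) * (324 * q.x ^ 4 * k ^ 4 * M4))) * √M := by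
  have hn : 0 ≤ 18 * q.x ^ 2 * k ^ 2 * n := by positivity
  have e : √(18 * q.x ^ 2 * k ^ 2 * n) ^ 2 = 18 * q.x ^ 2 * k ^ 2 * n := Real.sq_sqrt hn
  have eφ : EG (Av (lf (row b ∪ row b')) (dens q (lz k (SkS (n := n))))) :=
    eg_Av _ (eg_dens c11_sk hq.x0)
  have pφ : ∀ w, 0 ≤ Av (lf (row b ∪ row b')) (dens q (lz k (SkS (n := n)))) w := fun w =>
    integral_nonneg fun w => (Real.exp_pos _).le
  have hψ := lf_psi_s (l := √(18 * q.x ^ 2 * k ^ 2 * n)) (c11_sk (n := n) (k := k)) hq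
    (Dsk_rows b b') (Real.sqrt_nonneg _) (by rw [e]; linarith)
  have h1 := hψ.lc2 (by rw [e]; linarith) hf
  have h3 : Ew q (lz k (SkS (n := n))) (fun _ => 1) =
      ∫ w, Real.exp (psi q (lz k SkS) w) ∂(gI (K4 (Pair n))) := by
    unfold Ew; simp only [mul_one, dens_eq]
  rw [h3]
  refine h1.trans (mul_le_mul (Real.sqrt_le_sqrt ?_) (Real.sqrt_le_sqrt hM) (Real.sqrt_nonneg _)
    (Real.sqrt_nonneg _))
  refine mul_le_mul_of_nonneg_left (Real.sqrt_le_sqrt ?_) (by norm_num)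
  refine mul_le_mul_of_nonneg_left (psi_four_sk_s hq b b' eφ pφ m3 m1 m0) ?_
  exact integral_nonneg fun w => (Real.exp_pos _).le

/-- **the law change error** of the quartic functionals in the SK model -/
theorem lam_sk_s (hq : q.OkS) (b b' : Fin n) (hl : 288 * q.x ^ 2 * k ^ 2 * n ≤ 1)
    {U V X Y : (K4 (Pair n) → ℝ) → Fin n → ℝ} (hU : ∀ i, EG fun w => U w i)
    (hV : ∀ i, EG fun w => V w i) (hX : ∀ i, EG fun w => X w i) (hY : ∀ i, EG fun w => Y w i)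
    {M8 M4 : ℝ}
    (mU : ∫ w, Av (lf (row b ∪ row b')) (dens q (lz k SkS)) w * vs (U w) ^ 4
      ∂(gI (K4 (Pair n))) ≤ M8)
    (mV : ∫ w, Av (lf (row b ∪ row b')) (dens q (lz k SkS)) w * vs (V w) ^ 4
      ∂(gI (K4 (Pair n))) ≤ M8)
    (mX : ∫ w, Av (lf (row b ∪ row b')) (dens q (lz k SkS)) w * vs (X w) ^ 4
      ∂(gI (K4 (Pair n))) ≤ M8)
    (mY : ∫ w, Av (lf (row b ∪ row b')) (dens q (lz k SkS)) w * vs (Y w) ^ 4
      ∂(gI (K4 (Pair n))) ≤ M8)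
    (m3 : ∀ c, c = b ∨ c = b' → ∫ w, Av (lf (row b ∪ row b')) (dens q (lz k SkS)) w *
      vn (H816.col (AA k q.x q.s2 (P3 q w)) c) ^ 2 ∂(gI (K4 (Pair n))) ≤ M4)
    (m1 : ∀ c, c = b ∨ c = b' → ∫ w, Av (lf (row b ∪ row b')) (dens q (lz k SkS)) w *
      vn (H816.col (AA k q.x q.t1 (P1 q w)) c) ^ 2 ∂(gI (K4 (Pair n))) ≤ M4)
    (m0 : ∀ c, c = b ∨ c = b' → ∫ w, Av (lf (row b ∪ row b')) (dens q (lz k SkS)) w *
      vn (H816.col (AA k q.x q.t0 (P0 q w)) c) ^ 2 ∂(gI (K4 (Pair n))) ≤ M4) :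
    |∫ w, dens q (lz k SkS) w * (dp (U w) (V w) * dp (X w) (Y w)) ∂(gI (K4 (Pair n))) -
      ∫ w, Av (lf (row b ∪ row b')) (dens q (lz k SkS)) w * (dp (U w) (V w) * dp (X w) (Y w))
        ∂(gI (K4 (Pair n)))| ≤
      √(2 * √(Ew q (lz k (SkS (n := n))) (fun _ => 1) * (324 * q.x ^ 4 * k ^ 4 * M4))) * √M8 := by
  have hn : 0 ≤ 18 * q.x ^ 2 * k ^ 2 * n := by positivity
  have e : √(18 * q.x ^ 2 * k ^ 2 * n) ^ 2 = 18 * q.x ^ 2 * k ^ 2 * n := Real.sq_sqrt hn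
  have eφ : EG (Av (lf (row b ∪ row b')) (dens q (lz k (SkS (n := n))))) :=
    eg_Av _ (eg_dens c11_sk hq.x0)
  have pφ : ∀ w, 0 ≤ Av (lf (row b ∪ row b')) (dens q (lz k (SkS (n := n)))) w := fun w =>
    integral_nonneg fun w => (Real.exp_pos _).le
  have h1 := lam_le_s (l := √(18 * q.x ^ 2 * k ^ 2 * n)) (c11_sk (n := n) (k := k)) hq
    (Dsk_rows b b') (Real.sqrt_nonneg _) (by rw [e]; linarith) (by rw [e]; linarith)
    hU hV hX hY mU mV mX mY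
  refine h1.trans (mul_le_mul_of_nonneg_right (Real.sqrt_le_sqrt ?_) (Real.sqrt_nonneg _))
  refine mul_le_mul_of_nonneg_left (Real.sqrt_le_sqrt ?_) (by norm_num)
  exact mul_le_mul_of_nonneg_left (psi_four_sk_s hq b b' eφ pφ m3 m1 m0)
    (Ew_one_pos c11_sk hq.x0).le

end Vale.Agent.P146.R1C
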