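import Vale.Agent.P146.H712.EnCalc
import Vale.Agent.P146.H797.H706_LawK
import Vale.Agent.P146.H797.H712_Pos
import Vale.Agent.P146.H797.H826_LawP
import Vale.Agent.P146.H797.OkS

/-!
The results of `H712.EnCalc` for signed tilts `-1 ≤ θ ≤ 1` (`Par.OkS` in the place of `Par.Ok`).
-/

open MeasureTheory ProbabilityTheory

namespace Vale.Agent.P146.H712

open Vale.Agent.P157.Lv Vale.Agent.P146.H425 Vale.Agent.P146.R1 Vale.Agent.P146.R1C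

set_option linter.unusedSectionVars false

variable {κ : Type} [Fintype κ] [DecidableEq κ] {q : Par} {F : (κ → ℝ) → ℝ}
  {D : κ → (κ → ℝ) → ℝ} {B L : ℝ} {f g : (K4 κ → ℝ) → ℝ}

theorem llow_s {R : Finset κ} (h : C11 F D B L) (hq : q.OkS) {Bd l : ℝ}
    (hR : ∀ z, ∑ e ∈ R, D e z ^ 2 ≤ Bd) (hl0 : 0 ≤ l) (hl : 9 * q.x ^ 2 * Bd ≤ l ^ 2) (p : ℕ)
    (hp : ((p : ℝ) + 1) ^ 2 * l ^ 2 ≤ 1) : LLow q F R (3 / 2 ^ p) := by
  intro f hf K h0 hK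
  have h1 := law_low_s h hq hR hl0 hl p hp hf h0 hK
  have hE := Ew_one_pos (q := q) h hq.x0
  unfold En
  rw [div_le_iff₀ hE]
  refine h1.trans (le_of_eq ?_)
  have e1 : Ew q F f / Ew q F (fun _ => 1) * Ew q F (fun _ => 1) = Ew q F f :=
    div_mul_cancel₀ _ hE.ne'
  rw [add_mul, mul_assoc, e1]
  ring

theorem lup_s {R : Finset κ} (h : C11 F D B L) (hq : q.OkS) {Bd l : ℝ}
    (hR : ∀ z, ∑ e ∈ R, D e z ^ 2 ≤ Bd) (hl0 : 0 ≤ l) (hl : 9 * q.x ^ 2 * Bd ≤ l ^ 2) (p : ℕ)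
    (hp : ((p : ℝ) + 1) ^ 2 * l ^ 2 ≤ 1) : LUp q F R (3 / 2 ^ p) := by
  intro f hf K h0 hK
  have h1 := law_up_s h hq hR hl0 hl p hp hf h0 hK
  have hE := Ew_one_pos (q := q) h hq.x0
  unfold En
  rw [div_le_iff₀ hE]
  refine h1.trans (le_of_eq ?_)
  have e1 : Ew q F (Av (lf R) f) / Ew q F (fun _ => 1) * Ew q F (fun _ => 1) =
      Ew q F (Av (lf R) f) := div_mul_cancel₀ _ hE.ne'
  rw [add_mul, mul_assoc, e1]
  ring

end Vale.Agent.P146.H712
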