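import Vale.Agent.P146.H604.HNumG
import Vale.Agent.P146.H797.H326_PrI
import Vale.Agent.P146.H797.H604_HRowSk
import Vale.Agent.P146.H797.H706_LawK
import Vale.Agent.P146.H797.H706_LawS
import Vale.Agent.P146.H797.H712_EnCalc
import Vale.Agent.P146.H797.H712_Pos
import Vale.Agent.P146.H797.H816_SkT
import Vale.Agent.P146.H797.H826_LawP
import Vale.Agent.P146.H797.OkS

/-!
The results of `H604.HNumG` for signed tilts `-1 ≤ θ ≤ 1` (`Par.OkS` in the place of `Par.Ok`).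
-/

open MeasureTheory ProbabilityTheory

namespace Vale.Agent.P146.R1C

open Vale.Agent.P157.Lv Vale.Agent.P146.H425 Vale.Agent.P146.H332 Vale.Agent.P146.H325
  Vale.Agent.P146.H712 Vale.Agent.P146.R1 Vale.Agent.P146.H816 Vale.Agent.P146.H604 Matrix

set_option linter.unusedSectionVars false

section mono

variable {n : ℕ} {k : ℝ} {q : Par} {F : (Pair n → ℝ) → ℝ} {M M' δ : Fin n → Fin n → ℝ}

end mono

section gen

variable {n : ℕ} {q : Par} {F : (Pair n → ℝ) → ℝ} {D : Pair n → (Pair n → ℝ) → ℝ}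
  {B L ε : ℝ} {C : (Pair n → ℝ) → Matrix (Fin n) (Fin n) ℝ}
  {E : Pair n → (Pair n → ℝ) → Matrix (Fin n) (Fin n) ℝ} {c : Fin 4 → ℝ}

/-- the moments of `Zn` under the law of a pair -/
lemma Zn_mom_s (h : C11 F D B L) (hq : q.OkS) (hl : H326.LCh q F ε) (hε0 : 0 ≤ ε)
    (hεn : (n : ℝ) ^ 20 * ε ≤ 1) (n2 : (2 : ℝ) ≤ n) {Am : (K4 (Pair n) → ℝ) → Matrix (Fin n) (Fin n) ℝ}
    (hA : ∀ i j, EG fun w => Am w i j) (hb : ∀ w, fr (Am w) ≤ (n : ℝ) ^ 2) {W δ u : ℝ}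
    (hW : 0 ≤ W) (hδ0 : 0 ≤ δ)
    (hδ : En q F (fun w => if W < fr (Am w) then (1 : ℝ) else 0) ≤ δ)
    (hδn : (n : ℝ) ^ 200 * δ ≤ 1) (hu : W / n ≤ u) (hu1 : 1 ≤ u) (b b' : Fin n) (p : ℕ)
    (hp : p ≤ 10) :
    ∫ w, ph q F b b' w * Zn Am w ^ p ∂(gI (K4 (Pair n))) ≤
      Ew q F (fun _ => 1) * (5 * u ^ p) := by
  have hx := hq.x0
  have hE := Ew1_pos (q := q) h hx
  have hn0 : (0 : ℝ) < n := by linarith
  have hZ := eg_Zn hA
  have hZn : ∀ w, Zn Am w ≤ n := by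
    intro w
    unfold Zn
    rw [div_le_iff₀ hn0]
    have := hb w
    nlinarith
  have h1 := H326.ph_le_s h hq hl b b' (f := fun w => Zn Am w ^ p) (K := (n : ℝ) ^ p) (hZ.pow p)
    (fun w => pow_nonneg (Zn_nonneg w) p) (fun w => pow_le_pow_left₀ (Zn_nonneg w) (hZn w) p)
  refine h1.trans (mul_le_mul_of_nonneg_left ?_ hE.le)
  -- the mean of the power
  have h2 := En_pow_le h hx (eg_fr hA) (fun w => H332.fr_nonneg (Am w)) hb hW hδ p
  have e1 : En q F (fun w => Zn Am w ^ p) = ((n : ℝ)⁻¹) ^ p * En q F (fun w => fr (Am w) ^ p) := by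
    rw [← R1C.En_const_mul]
    congr 1
    funext w
    unfold Zn
    rw [div_eq_inv_mul, mul_pow]
  have h3 : ((n : ℝ)⁻¹) ^ p * ((n : ℝ) ^ 2) ^ p = (n : ℝ) ^ p := by
    rw [← mul_pow]
    congr 1
    field_simp
  have h4 : ((n : ℝ)⁻¹) ^ p * W ^ p ≤ u ^ p := by
    rw [← mul_pow]
    refine pow_le_pow_left₀ (by positivity) ?_ p
    rwa [← div_eq_inv_mul]
  have h5 : (n : ℝ) ^ p * δ ≤ 1 / 4 := by
    have a1 : (n : ℝ) ^ p * 4 ≤ (n : ℝ) ^ 200 := by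
      calc (n : ℝ) ^ p * 4 ≤ (n : ℝ) ^ 198 * (n : ℝ) ^ 2 := by
            refine mul_le_mul (pow_le_pow_right₀ (by linarith) (by omega)) (by nlinarith)
              (by norm_num) (by positivity)
        _ = _ := by rw [← pow_add]
    have a2 := mul_le_mul_of_nonneg_right a1 hδ0
    linarith
  have h6 : (n : ℝ) ^ p * ε ≤ 1 := by
    refine (mul_le_mul_of_nonneg_right (pow_le_pow_right₀ (by linarith) (by omega)) hε0).trans hεn
  have h7 : En q F (fun w => Zn Am w ^ p) ≤ u ^ p + 1 / 4 := by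
    rw [e1]
    have a1 := mul_le_mul_of_nonneg_left h2 (by positivity : 0 ≤ ((n : ℝ)⁻¹) ^ p)
    have a2 : ((n : ℝ)⁻¹) ^ p * (W ^ p + ((n : ℝ) ^ 2) ^ p * δ) =
        ((n : ℝ)⁻¹) ^ p * W ^ p + (((n : ℝ)⁻¹) ^ p * ((n : ℝ) ^ 2) ^ p) * δ := by ring
    rw [a2, h3] at a1
    linarith
  have h8 : 1 ≤ u ^ p := one_le_pow₀ hu1
  have h9 : ε * (n : ℝ) ^ p ≤ 1 := by rw [mul_comm]; exact h6
  linarith

/-- **the touches of `Zn`, summed over the pairs** -/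
theorem Zn_touch_s (h : C11 F D B L) (hq : q.OkS) (hl : H326.LCh q F ε) (hε0 : 0 ≤ ε)
    (hεn : (n : ℝ) ^ 20 * ε ≤ 1) (n2 : (2 : ℝ) ≤ n) (hC : ∀ i j, EG fun z => C z i j)
    (hE : ∀ e i j, EG fun z => E e z i j)
    (hd : ∀ e i j, PD e (fun z => C z i j) (fun z => E e z i j))
    (hc : c 0 ^ 2 + c 1 ^ 2 + c 2 ^ 2 + c 3 ^ 2 ≤ 1)
    (hb : ∀ z, fr (C z) ≤ (n : ℝ) ^ 2) (hr : ∀ z, ∑ e, fr (E e z) ≤ 9 * (n : ℝ) ^ 4)
    {W δ T : ℝ} (hW : 1 ≤ W) (hδ0 : 0 ≤ δ)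
    (hδ : En q F (fun w => if W < fr (C (H712.lp c w)) then (1 : ℝ) else 0) ≤ δ)
    (hδn : (n : ℝ) ^ 200 * δ ≤ 1) (hT0 : 0 < T) (hT1 : T ≤ 1)
    (hrt : En q F (fun w => ∑ e, fr (E e (H712.lp c w))) ≤ W / T) :
    ∑ b : Fin n, ∑ b' ∈ Finset.univ.erase b,
      ∫ w, ph q F b b' w * (Zn (fun w => C (H712.lp c w)) w -
        Av (lf (row b ∪ row b')) (Zn fun w => C (H712.lp c w)) w) ^ 2 ∂(gI (K4 (Pair n))) ≤
      Ew q F (fun _ => 1) * (68 * (W ^ 2 / (n * T))) := by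
  have hx := hq.x0
  have hE0 := Ew1_pos (q := q) h hx
  have hn0 : (0 : ℝ) < n := by linarith
  obtain ⟨Z, hZ⟩ : ∃ Z, Z = Ew q F (fun _ : K4 (Pair n) → ℝ => (1 : ℝ)) := ⟨_, rfl⟩
  rw [← hZ] at hE0 ⊢
  have eC : EG fun w : K4 (Pair n) → ℝ => fr (C (H712.lp c w)) :=
    eg_fr fun i j => eg_lp c (hC i j)
  have eE : ∀ e, EG fun w : K4 (Pair n) → ℝ => fr (E e (H712.lp c w)) := fun e =>
    eg_fr fun i j => eg_lp c (hE e i j)
  have eR : ∀ R : Finset (Pair n), EG fun w : K4 (Pair n) → ℝ => ∑ e ∈ R, fr (E e (H712.lp c w)) :=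
    fun R => EG.sum R fun e _ => eE e
  have fC : ∀ w, 0 ≤ fr (C (H712.lp c w)) := fun w => H332.fr_nonneg _
  have fR : ∀ (R : Finset (Pair n)) w, 0 ≤ ∑ e ∈ R, fr (E e (H712.lp c w)) := fun R w =>
    Finset.sum_nonneg fun e _ => H332.fr_nonneg _
  have uR : ∀ (R : Finset (Pair n)) w, ∑ e ∈ R, fr (E e (H712.lp c w)) ≤ 9 * (n : ℝ) ^ 4 :=
    fun R w => (Finset.sum_le_sum_of_subset_of_nonneg (Finset.subset_univ R)
      fun e _ _ => H332.fr_nonneg _).trans (hr _)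
  -- one pair
  have one : ∀ b b' : Fin n, ∫ w, ph q F b b' w * (Zn (fun w => C (H712.lp c w)) w -
        Av (lf (row b ∪ row b')) (Zn fun w => C (H712.lp c w)) w) ^ 2 ∂(gI (K4 (Pair n))) ≤
      4 / n ^ 2 * (Z * (2 * ∑ e ∈ row b ∪ row b', En q F (fun w => fr (C (H712.lp c w)) *
        fr (E e (H712.lp c w))) + ε * (9 * (n : ℝ) ^ 6))) := by
    intro b b'
    have t1 := touch_Zn (R := row b ∪ row b') c hC hE hd (H326.eg_ph_s h hq b b')
      (H326.ph_nonneg_s h hq b b') (by unfold ph; exact ind_Av _ _)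
    have t2 := H326.ph_le_s h hq hl b b' (f := fun w => fr (C (H712.lp c w)) *
      ∑ e ∈ row b ∪ row b', fr (E e (H712.lp c w))) (K := 9 * (n : ℝ) ^ 6)
      (eC.mul (eR _)) (fun w => mul_nonneg (fC w) (fR _ w)) (fun w => by
        have := mul_le_mul (hb (H712.lp c w)) (uR (row b ∪ row b') w) (fR _ w) (by positivity)
        calc _ ≤ _ := this
          _ = _ := by ring)
    rw [← hZ] at t2
    have e1 : En q F (fun w => fr (C (H712.lp c w)) *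
        ∑ e ∈ row b ∪ row b', fr (E e (H712.lp c w))) =
        ∑ e ∈ row b ∪ row b', En q F (fun w => fr (C (H712.lp c w)) * fr (E e (H712.lp c w))) := by
      rw [← H712.En_sum h hx _ fun e _ => eC.mul (eE e)]
      congr 1
      funext w
      rw [Finset.mul_sum]
    rw [e1] at t2
    refine t1.trans ?_
    have h3 : 4 * (c 0 ^ 2 + c 1 ^ 2 + c 2 ^ 2 + c 3 ^ 2) / (n : ℝ) ^ 2 ≤ 4 / n ^ 2 := by
      rw [div_le_div_iff_of_pos_right (by positivity)]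
      linarith
    have h4 : 0 ≤ ∫ w, ph q F b b' w * (fr (C (H712.lp c w)) *
        ∑ e ∈ row b ∪ row b', fr (E e (H712.lp c w))) ∂(gI (K4 (Pair n))) :=
      integral_nonneg fun w => mul_nonneg (H326.ph_nonneg_s h hq b b' w)
        (mul_nonneg (fC w) (fR _ w))
    refine (mul_le_mul_of_nonneg_right h3 h4).trans ?_
    exact mul_le_mul_of_nonneg_left t2 (by positivity)
  -- the product
  have hprod : En q F (fun w => fr (C (H712.lp c w)) * ∑ e, fr (E e (H712.lp c w))) ≤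
      2 * (W ^ 2 / T) := by
    have a1 := En_prod_le h hx eC (eR Finset.univ) fC (fR Finset.univ)
      (fun w => hb (H712.lp c w)) (uR Finset.univ) (by linarith) hδ hrt
    have a2 : (n : ℝ) ^ 2 * (9 * (n : ℝ) ^ 4) * δ ≤ 1 := by
      refine le_trans (mul_le_mul_of_nonneg_right ?_ hδ0) hδn
      have a3 : (9 : ℝ) ≤ (n : ℝ) ^ 4 := by
        have := pow_le_pow_left₀ (by norm_num) n2 4
        norm_num at this
        linarith
      calc (n : ℝ) ^ 2 * (9 * (n : ℝ) ^ 4) = 9 * (n : ℝ) ^ 6 := by ring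
        _ ≤ (n : ℝ) ^ 4 * (n : ℝ) ^ 6 := mul_le_mul_of_nonneg_right a3 (by positivity)
        _ = (n : ℝ) ^ 10 := by rw [← pow_add]
        _ ≤ _ := pow_le_pow_right₀ (by linarith) (by norm_num)
    have a4 : 1 ≤ W ^ 2 / T := by
      rw [le_div_iff₀ hT0]
      nlinarith
    have a5 : W * (W / T) = W ^ 2 / T := by ring
    rw [a5] at a1
    linarith
  have g0 : ∀ e, 0 ≤ En q F (fun w => fr (C (H712.lp c w)) * fr (E e (H712.lp c w))) := fun e =>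
    R1C.En_nonneg fun w => mul_nonneg (fC w) (H332.fr_nonneg _)
  have hpairs := sum_pairs_rows g0
  have e2 : ∑ e, En q F (fun w => fr (C (H712.lp c w)) * fr (E e (H712.lp c w))) =
      En q F (fun w => fr (C (H712.lp c w)) * ∑ e, fr (E e (H712.lp c w))) := by
    rw [← H712.En_sum h hx _ fun e _ => eC.mul (eE e)]
    congr 1
    funext w
    rw [Finset.mul_sum]
  rw [e2] at hpairs
  have hconst := H712.sum_pairs_const (n := n) (ε * (9 * (n : ℝ) ^ 6)) (by positivity)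
  have hU : 1 ≤ W ^ 2 / T := by
    rw [le_div_iff₀ hT0]
    nlinarith
  have hεb : (n : ℝ) ^ 2 * (ε * (9 * (n : ℝ) ^ 6)) ≤ 1 := by
    have a3 : (9 : ℝ) ≤ (n : ℝ) ^ 4 := by
      have := pow_le_pow_left₀ (by norm_num) n2 4
      norm_num at this
      linarith
    have a4 : 9 * (n : ℝ) ^ 8 ≤ (n : ℝ) ^ 20 := by
      calc 9 * (n : ℝ) ^ 8 ≤ (n : ℝ) ^ 4 * (n : ℝ) ^ 8 :=
            mul_le_mul_of_nonneg_right a3 (by positivity)
        _ = (n : ℝ) ^ 12 := by rw [← pow_add]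
        _ ≤ _ := pow_le_pow_right₀ (by linarith) (by norm_num)
    have a5 := mul_le_mul_of_nonneg_right a4 hε0
    have a6 : (n : ℝ) ^ 2 * (ε * (9 * (n : ℝ) ^ 6)) = 9 * (n : ℝ) ^ 8 * ε := by ring
    rw [a6]
    exact a5.trans hεn
  refine (Finset.sum_le_sum fun b _ => Finset.sum_le_sum fun b' _ => one b b').trans ?_
  have e3 : ∑ b : Fin n, ∑ b' ∈ Finset.univ.erase b, 4 / (n : ℝ) ^ 2 *
      (Z * (2 * ∑ e ∈ row b ∪ row b', En q F (fun w => fr (C (H712.lp c w)) *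
        fr (E e (H712.lp c w))) + ε * (9 * (n : ℝ) ^ 6))) =
      4 / (n : ℝ) ^ 2 * (Z * (2 * (∑ b : Fin n, ∑ b' ∈ Finset.univ.erase b,
        ∑ e ∈ row b ∪ row b', En q F (fun w => fr (C (H712.lp c w)) *
        fr (E e (H712.lp c w)))) + ∑ b : Fin n, ∑ _b' ∈ Finset.univ.erase b,
          ε * (9 * (n : ℝ) ^ 6))) := by
    simp only [← Finset.mul_sum, Finset.sum_add_distrib]
  rw [e3]
  have f1 : 2 * (∑ b : Fin n, ∑ b' ∈ Finset.univ.erase b,
        ∑ e ∈ row b ∪ row b', En q F (fun w => fr (C (H712.lp c w)) *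
        fr (E e (H712.lp c w)))) + ∑ b : Fin n, ∑ _b' ∈ Finset.univ.erase b,
          ε * (9 * (n : ℝ) ^ 6) ≤ 17 * (n * (W ^ 2 / T)) := by
    have b1 : 4 * (n : ℝ) * En q F (fun w => fr (C (H712.lp c w)) *
        ∑ e, fr (E e (H712.lp c w))) ≤ 4 * (n : ℝ) * (2 * (W ^ 2 / T)) :=
      mul_le_mul_of_nonneg_left hprod (by positivity)
    have b2 : (1 : ℝ) ≤ n * (W ^ 2 / T) := by nlinarith
    linarith
  have f2 := mul_le_mul_of_nonneg_left (mul_le_mul_of_nonneg_left f1 hE0.le)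
    (by positivity : (0 : ℝ) ≤ 4 / n ^ 2)
  refine f2.trans (le_of_eq ?_)
  field_simp
  ring

end gen

end Vale.Agent.P146.R1C
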