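import Vale.Agent.P146.H706.LamSum
import Vale.Agent.P146.H797.H706_LawK
import Vale.Agent.P146.H797.H706_LawS
import Vale.Agent.P146.H797.H712_Pos
import Vale.Agent.P146.H797.H816_SkT
import Vale.Agent.P146.H797.H826_LawP
import Vale.Agent.P146.H797.OkS

/-!
The results of `H706.LamSum` for signed tilts `-1 ≤ θ ≤ 1` (`Par.OkS` in the place of `Par.Ok`).
-/

set_option linter.all false

open MeasureTheory ProbabilityTheory Finset

namespace Vale.Agent.P146.R1C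

open Vale.Agent.P157.Lv Vale.Agent.P146.H425 Vale.Agent.P146.H325 Vale.Agent.P146.H332
  Vale.Agent.P146.H712 Vale.Agent.P146.R1 Vale.Agent.P146.H706 Vale.Agent.P146.H522

variable {n : ℕ} {k : ℝ} {q : Par}

/-- **the law change for all the pairs** -/
theorem lamSk_num_s (hq : q.OkS) (hk : 0 ≤ k) (hl : 288 * q.x ^ 2 * k ^ 2 * n ≤ 1) {m4 m8 : ℝ}
    (hm4 : 0 ≤ m4) (h4 : H4 k q n m4) (h8 : H8 k q n m8) :
    LamSk k q (lz k (SkS (n := n))) fun _ _ =>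
      Ew q (lz k (SkS (n := n))) (fun _ => 1) * (6 * q.x * k * √(√m4) * √m8) := by
  intro b b' hb U V X Y hU hV hX hY
  have hZ : 0 < Ew q (lz k (SkS (n := n))) (fun _ => 1) := Ew_one_pos c11_sk hq.x0
  have g1 : ∀ c : Fin n, ∀ i, EG fun w => H816.col (A1 k q w) c i := fun c i => eg_A1 i c
  have g2 : ∀ c : Fin n, ∀ i, EG fun w => H816.col (A2 k q w) c i := fun c i => eg_A2 i c
  have key : ∀ {W : (K4 (Pair n) → ℝ) → Fin n → ℝ} {c : Fin n}, (c = b ∨ c = b') →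
      (W = (fun w => H816.col (A1 k q w) c) ∨ W = (fun w => H816.col (A2 k q w) c)) →
      (∀ i, EG fun w => W w i) ∧ ∫ w, Av (lf (row b ∪ row b')) (dens q (lz k SkS)) w *
        vs (W w) ^ 4 ∂(gI (K4 (Pair n))) ≤ Ew q (lz k (SkS (n := n))) (fun _ => 1) * m8 := by
    intro W c hc hW
    rcases hW with rfl | rfl
    · exact ⟨g1 c, (h8 b b' hb c hc).1⟩
    · exact ⟨g2 c, (h8 b b' hb c hc).2⟩
  obtain ⟨eU, mU⟩ := key (Or.inl rfl) hU
  obtain ⟨eV, mV⟩ := key (Or.inr rfl) hV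
  obtain ⟨eX, mX⟩ := key (Or.inl rfl) hX
  obtain ⟨eY, mY⟩ := key (Or.inr rfl) hY
  have h1 := lam_sk_s hq b b' hl eU eV eX eY mU mV mX mY (fun c hc => (h4 b b' hb c hc).1)
    (fun c hc => (h4 b b' hb c hc).2.1) (fun c hc => (h4 b b' hb c hc).2.2)
  rw [sqrt_num hZ.le hq.x0.le hk hm4] at h1
  exact h1

/-- the law change of a general functional, in numbers -/
theorem lam_gen_num_s (hq : q.OkS) (hk : 0 ≤ k) (hl : 288 * q.x ^ 2 * k ^ 2 * n ≤ 1) {m4 m : ℝ}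
    (hm4 : 0 ≤ m4) (h4 : H4 k q n m4) {b b' : Fin n} (hb : b' ≠ b)
    {f : (K4 (Pair n) → ℝ) → ℝ} (hf : EG f)
    (hM : ∫ w, ph q (lz k SkS) b b' w * f w ^ 2 ∂(gI (K4 (Pair n))) ≤
      Ew q (lz k (SkS (n := n))) (fun _ => 1) * m) :
    |∫ w, dens q (lz k SkS) w * f w ∂(gI (K4 (Pair n))) -
      ∫ w, ph q (lz k SkS) b b' w * f w ∂(gI (K4 (Pair n)))| ≤
      Ew q (lz k (SkS (n := n))) (fun _ => 1) * (6 * q.x * k * √(√m4) * √m) := by
  have hZ : 0 < Ew q (lz k (SkS (n := n))) (fun _ => 1) := Ew_one_pos c11_sk hq.x0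
  have h1 := lam_gen_sk_s hq b b' hl hf hM (fun c hc => (h4 b b' hb c hc).1)
    (fun c hc => (h4 b b' hb c hc).2.1) (fun c hc => (h4 b b' hb c hc).2.2)
  rw [sqrt_num hZ.le hq.x0.le hk hm4] at h1
  exact h1

end Vale.Agent.P146.R1C
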