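import Vale.Agent.P146.H941.SkTS
import Vale.Agent.P146.H797.H706_LawK
import Vale.Agent.P146.H797.H712_Pos
import Vale.Agent.P146.H797.H816_SkT
import Vale.Agent.P146.H797.H826_LawP
import Vale.Agent.P146.H797.OkS

/-!
The results of `H941.SkTS` for signed tilts `-1 ≤ θ ≤ 1` (`Par.OkS` in the place of `Par.Ok`).
-/

open MeasureTheory ProbabilityTheory

namespace Vale.Agent.P146.R1S

open Vale.Agent.P157.Lv Vale.Agent.P146.H425 Vale.Agent.P146.H325
  Vale.Agent.P146.H712 Vale.Agent.P146.R1 Vale.Agent.P146.R1C Vale.Agent.P146.H816 Matrix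
open Vale.Agent.P146.H332 hiding Nf Gf

set_option linter.unusedSectionVars false

variable {n : ℕ} {k x : ℝ} {S : CS n k x} {q : Par} {F : (Pair n → ℝ) → ℝ}
  {D : Pair n → (Pair n → ℝ) → ℝ} {B L : ℝ} {M δ lam : Fin n → Fin n → ℝ}

lemma a1_eq_s (hq : q.OkS) (b b' i : Fin n) (w : K4 (Pair n) → ℝ) :
    a1 S q b b' w i = Av (lf (row b')) (fun w => A1 S q w i b) w :=
  (Av_lf_P2_s hq (tA_eg S q.s1 i b) (row b') w).symm

lemma a2_eq_s (hq : q.OkS) (b b' i : Fin n) (w : K4 (Pair n) → ℝ) :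
    a2 S q b b' w i = Av (lf (row b')) (fun w => A2 S q w i b) w :=
  (Av_lf_P3_s hq (tA_eg S q.s2 i b) (row b') w).symm

section norm

variable {m6 dl ls : ℝ}

end norm

end Vale.Agent.P146.R1S
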