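import Vale.Agent.P146.H706.LawT
import Vale.Agent.P146.H797.H706_LamSum
import Vale.Agent.P146.H797.H706_LawK
import Vale.Agent.P146.H797.H706_LawS
import Vale.Agent.P146.H797.H712_Pos
import Vale.Agent.P146.H797.H816_SkT
import Vale.Agent.P146.H797.H826_LawP
import Vale.Agent.P146.H797.OkS

/-!
The results of `H706.LawT` for signed tilts `-1 ≤ θ ≤ 1` (`Par.OkS` in the place of `Par.Ok`).
-/

set_option linter.all false

open MeasureTheory ProbabilityTheory Finset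

namespace Vale.Agent.P146.R1S

open Vale.Agent.P157.Lv Vale.Agent.P146.H425 Vale.Agent.P146.H325 Vale.Agent.P146.H332
  Vale.Agent.P146.H712 Vale.Agent.P146.R1 Vale.Agent.P146.R1C Vale.Agent.P146.H706

section gen

variable {κ : Type} [Fintype κ] [DecidableEq κ] {F : (κ → ℝ) → ℝ} {D : κ → (κ → ℝ) → ℝ}
  {B L : ℝ} {q : Par} {R : Finset κ}

/-- the log density satisfies the hypotheses of the law change, with a bound on `grF` -/
theorem lf_psi_gr_s (h : C11 F D B L) (hq : q.OkS) {Bd l : ℝ}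
    (hG : ∀ t z, grF q.x t F D R z ≤ Bd) (hl0 : 0 ≤ l) (hl : 9 * q.x ^ 2 * Bd ≤ l ^ 2) :
    LF (lf R) (psi q F) (psi' q F D) l where
  lip := lip_psi h hq.x0
  pd j _ := pd_psi h hq.x0 j
  eg j _ := eg_psi' h hq.x0 j
  nn := hl0
  le w := by
    refine (psi_sq_le_s hq w).trans (le_trans ?_ hl)
    have g3 := hG q.s2 (P3 q w)
    have g1 := hG q.t1 (P1 q w)
    have g0 := hG q.t0 (P0 q w)
    have hBd : 0 ≤ Bd := (grF_nonneg _ _ _).trans g0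
    have hθ : q.θ ^ 2 ≤ 1 := hq.sq_le
    have k1 : q.θ ^ 2 * grF q.x q.t1 F D R (P1 q w) ≤ 1 * Bd :=
      mul_le_mul hθ g1 (grF_nonneg _ _ _) zero_le_one
    have k0 : q.θ ^ 2 * grF q.x q.t0 F D R (P0 q w) ≤ 1 * Bd :=
      mul_le_mul hθ g0 (grF_nonneg _ _ _) zero_le_one
    have : 3 * q.x ^ 2 * (grF q.x q.s2 F D R (P3 q w) + (q.θ ^ 2 * grF q.x q.t1 F D R (P1 q w) +
        q.θ ^ 2 * grF q.x q.t0 F D R (P0 q w))) ≤ 3 * q.x ^ 2 * (3 * Bd) :=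
      mul_le_mul_of_nonneg_left (by linarith) (by positivity)
    linarith

end gen

variable {n : ℕ} {k : ℝ} {q : Par} (S : CS n k q.x)

lemma lf_psi_S_s (hq : q.OkS) (b b' : Fin n) :
    LF (lf (row b ∪ row b')) (psi q S.F) (psi' q S.F S.D) (√(18 * q.x ^ 2 * k ^ 2 * n)) := by
  have hn : 0 ≤ 18 * q.x ^ 2 * k ^ 2 * n := by positivity
  have e : √(18 * q.x ^ 2 * k ^ 2 * n) ^ 2 = 18 * q.x ^ 2 * k ^ 2 * n := Real.sq_sqrt hn
  exact lf_psi_gr_s (Bd := 2 * k ^ 2 * n) S.c11 hq (fun t z => grF_rows_le S t b b' z)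
    (Real.sqrt_nonneg _) (by rw [e]; linarith)

/-- the transfer `E → E~` -/
theorem law_up_S_s (hq : q.OkS) (b b' : Fin n) (p : ℕ)
    (hp : ((p : ℝ) + 1) ^ 2 * (18 * q.x ^ 2 * k ^ 2 * n) ≤ 1)
    {f : (K4 (Pair n) → ℝ) → ℝ} (hf : EG f) {K : ℝ} (h0 : ∀ w, 0 ≤ f w) (hK : ∀ w, f w ≤ K) :
    Ew q S.F f ≤ 2 * Ew q S.F (Av (lf (row b ∪ row b')) f) +
      3 * K / 2 ^ p * Ew q S.F (fun _ => 1) := by
  have hn : 0 ≤ 18 * q.x ^ 2 * k ^ 2 * n := by positivity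
  have e : √(18 * q.x ^ 2 * k ^ 2 * n) ^ 2 = 18 * q.x ^ 2 * k ^ 2 * n := Real.sq_sqrt hn
  have := (lf_psi_S_s S hq b b').LC1 p (by rw [e]; exact hp) hf h0 hK
  unfold Ew
  simpa only [mul_one, dens_eq] using this

/-- the transfer `E~ → E` -/
theorem law_low_S_s (hq : q.OkS) (b b' : Fin n) (p : ℕ)
    (hp : ((p : ℝ) + 1) ^ 2 * (18 * q.x ^ 2 * k ^ 2 * n) ≤ 1)
    {f : (K4 (Pair n) → ℝ) → ℝ} (hf : EG f) {K : ℝ} (h0 : ∀ w, 0 ≤ f w) (hK : ∀ w, f w ≤ K) :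
    Ew q S.F (Av (lf (row b ∪ row b')) f) ≤ 2 * Ew q S.F f +
      3 * K / 2 ^ p * Ew q S.F (fun _ => 1) := by
  have hn : 0 ≤ 18 * q.x ^ 2 * k ^ 2 * n := by positivity
  have e : √(18 * q.x ^ 2 * k ^ 2 * n) ^ 2 = 18 * q.x ^ 2 * k ^ 2 * n := Real.sq_sqrt hn
  have := (lf_psi_S_s S hq b b').LC1' p (by rw [e]; exact hp) hf h0 hK
  unfold Ew
  simpa only [mul_one, dens_eq] using this

lemma Ew1_pos_S_s (hq : q.OkS) : 0 < Ew q S.F (fun _ => 1) := Ew_one_pos S.c11 hq.x0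

lemma eg_ph_S_s (hq : q.OkS) (b b' : Fin n) : EG (ph q S.F b b') := eg_Av _ (eg_dens S.c11 hq.x0)

/-- the fourth moment of the row gradient -/
theorem psi_four_S_s (hq : q.OkS) {b b' : Fin n} (hb : b' ≠ b) {m4 : ℝ} (h4 : H4 S m4) :
    ∫ w, ph q S.F b b' w * (∑ j ∈ lf (row b ∪ row b'), psi' q S.F S.D j w ^ 2) ^ 2
      ∂(gI (K4 (Pair n))) ≤ 324 * q.x ^ 4 * k ^ 4 * (Ew q S.F (fun _ => 1) * m4) := by
  set Z := Ew q S.F (fun _ => 1) with hZ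
  set φ := ph q S.F b b' with hφd
  have hφ : EG φ := eg_ph_S_s S hq b b'
  have hφ0 : ∀ w, 0 ≤ φ w := ph_nonneg_S S b b'
  have key := psi_four_le_s (R := row b ∪ row b') S.c11 hq hφ hφ0
  have hM4 : 0 ≤ Z * m4 := (integral_nonneg fun w => mul_nonneg (hφ0 w) (sq_nonneg _)).trans
    (h4 b b' hb b (Or.inl rfl)).1
  have one : ∀ (t : ℝ) (P : (K4 (Pair n) → ℝ) → Pair n → ℝ)
      (eP : ∀ {f : (Pair n → ℝ) → ℝ}, EG f → EG fun w => f (P w)),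
      (∀ c, c = b ∨ c = b' →
        ∫ w, φ w * vn (H816.col (S.A t (P w)) c) ^ 2 ∂(gI (K4 (Pair n))) ≤ Z * m4) →
      ∫ w, φ w * grF q.x t S.F S.D (row b ∪ row b') (P w) ^ 2 ∂(gI (K4 (Pair n))) ≤
        4 * k ^ 4 * (Z * m4) := by
    intro t P eP hm
    have ev : ∀ c, EG fun w => vn (H816.col (S.A t (P w)) c) := fun c => eP (eg_vn_col_S S t c)
    have i1 : Integrable (fun w => φ w * vn (H816.col (S.A t (P w)) b) ^ 2)
      (gI (K4 (Pair n))) := (hφ.mul ((ev b).pow 2)).integrable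
    have i2 : Integrable (fun w => φ w * vn (H816.col (S.A t (P w)) b') ^ 2)
      (gI (K4 (Pair n))) := (hφ.mul ((ev b').pow 2)).integrable
    have h1 : ∫ w, φ w * grF q.x t S.F S.D (row b ∪ row b') (P w) ^ 2
        ∂(gI (K4 (Pair n))) ≤ ∫ w, 2 * k ^ 4 * (φ w * vn (H816.col (S.A t (P w)) b) ^ 2 +
          φ w * vn (H816.col (S.A t (P w)) b') ^ 2) ∂(gI (K4 (Pair n))) := by
      refine integral_mono (hφ.mul ((eP (eg_grF S.c11 hq.x0 t)).pow 2)).integrable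
        ((i1.add i2).const_mul _) fun w => ?_
      show φ w * grF q.x t S.F S.D (row b ∪ row b') (P w) ^ 2 ≤ 2 * k ^ 4 *
        (φ w * vn (H816.col (S.A t (P w)) b) ^ 2 + φ w * vn (H816.col (S.A t (P w)) b') ^ 2)
      have h2 := grF_rows S t b b' (P w)
      have h3 := grF_nonneg (F := S.F) (D := S.D) (R := row b ∪ row b') q.x t (P w)
      have h4 := pow_le_pow_left₀ h3 h2 2
      set a := vn (H816.col (S.A t (P w)) b)
      set c := vn (H816.col (S.A t (P w)) b')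
      have h5 : (k ^ 2 * (a + c)) ^ 2 ≤ 2 * k ^ 4 * (a ^ 2 + c ^ 2) := by
        have h6 : 0 ≤ k ^ 4 := by positivity
        nlinarith [mul_nonneg h6 (sq_nonneg (a - c))]
      have := mul_le_mul_of_nonneg_left (h4.trans h5) (hφ0 w)
      linarith
    refine h1.trans ?_
    rw [integral_const_mul, integral_add i1 i2]
    have h2 := hm b (Or.inl rfl)
    have h3 := hm b' (Or.inr rfl)
    have h6 : 0 ≤ k ^ 4 := by positivity
    nlinarith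
  have k3 := one q.s2 (P3 q) (fun h => eg_P3 h) fun c hc => (h4 b b' hb c hc).1
  have k1 := one q.t1 (P1 q) (fun h => eg_P1 h) fun c hc => (h4 b b' hb c hc).2.1
  have k0 := one q.t0 (P0 q) (fun h => eg_P0 h) fun c hc => (h4 b b' hb c hc).2.2
  refine key.trans ?_
  have hθ : q.θ ^ 4 ≤ 1 := hq.four_le
  have hθ0 : 0 ≤ q.θ ^ 4 := by positivity
  have hk : 0 ≤ 4 * k ^ 4 * (Z * m4) := by positivity
  have l1 := mul_le_mul hθ k1 (integral_nonneg fun w => mul_nonneg (hφ0 w) (sq_nonneg _)) zero_le_one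
  have l0 := mul_le_mul hθ k0 (integral_nonneg fun w => mul_nonneg (hφ0 w) (sq_nonneg _)) zero_le_one
  have hx : 0 ≤ 27 * q.x ^ 4 := by positivity
  have := mul_le_mul_of_nonneg_left (add_le_add k3 (add_le_add l1 l0)) hx
  refine this.trans (le_of_eq ?_)
  ring

/-- **the law change of a general functional** -/
theorem lam_gen_S_s (hq : q.OkS) (hl : 288 * q.x ^ 2 * k ^ 2 * n ≤ 1) {m4 m : ℝ}
    (hm4 : 0 ≤ m4) (h4 : H4 S m4) {b b' : Fin n} (hb : b' ≠ b)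
    {f : (K4 (Pair n) → ℝ) → ℝ} (hf : EG f)
    (hM : ∫ w, ph q S.F b b' w * f w ^ 2 ∂(gI (K4 (Pair n))) ≤ Ew q S.F (fun _ => 1) * m) :
    |∫ w, dens q S.F w * f w ∂(gI (K4 (Pair n))) -
      ∫ w, ph q S.F b b' w * f w ∂(gI (K4 (Pair n)))| ≤
      Ew q S.F (fun _ => 1) * (6 * q.x * k * √(√m4) * √m) := by
  have hn : 0 ≤ 18 * q.x ^ 2 * k ^ 2 * n := by positivity
  have e : √(18 * q.x ^ 2 * k ^ 2 * n) ^ 2 = 18 * q.x ^ 2 * k ^ 2 * n := Real.sq_sqrt hn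
  have h1 := (lf_psi_S_s S hq b b').lc2 (by rw [e]; linarith) hf
  have h3 : Ew q S.F (fun _ => 1) = ∫ w, Real.exp (psi q S.F w) ∂(gI (K4 (Pair n))) := by
    unfold Ew; simp only [mul_one, dens_eq]
  rw [← sqrt_num (Ew1_pos_S_s S hq).le hq.x0.le S.k0.le hm4]
  refine h1.trans (mul_le_mul (Real.sqrt_le_sqrt ?_) (Real.sqrt_le_sqrt hM) (Real.sqrt_nonneg _)
    (Real.sqrt_nonneg _))
  refine mul_le_mul_of_nonneg_left (Real.sqrt_le_sqrt ?_) (by norm_num)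
  rw [← h3]
  exact mul_le_mul_of_nonneg_left (psi_four_S_s S hq hb h4) (Ew1_pos_S_s S hq).le

/-- **the law change of the quartic functionals** -/
theorem lam_S_s (hq : q.OkS) (hl : 288 * q.x ^ 2 * k ^ 2 * n ≤ 1) {m4 m8 : ℝ}
    (hm4 : 0 ≤ m4) (h4 : H4 S m4) (h8 : H8 S m8) {b b' : Fin n} (hb : b' ≠ b)
    {U V X Y : (K4 (Pair n) → ℝ) → Fin n → ℝ}
    (hU : U = (fun w => H816.col (S.A q.s1 (P2 q w)) b) ∨
      U = (fun w => H816.col (S.A q.s2 (P3 q w)) b))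
    (hV : V = (fun w => H816.col (S.A q.s1 (P2 q w)) b') ∨
      V = (fun w => H816.col (S.A q.s2 (P3 q w)) b'))
    (hX : X = (fun w => H816.col (S.A q.s1 (P2 q w)) b) ∨
      X = (fun w => H816.col (S.A q.s2 (P3 q w)) b))
    (hY : Y = (fun w => H816.col (S.A q.s1 (P2 q w)) b') ∨
      Y = (fun w => H816.col (S.A q.s2 (P3 q w)) b')) :
    |∫ w, dens q S.F w * (dp (U w) (V w) * dp (X w) (Y w)) ∂(gI (K4 (Pair n))) -
      ∫ w, ph q S.F b b' w * (dp (U w) (V w) * dp (X w) (Y w)) ∂(gI (K4 (Pair n)))| ≤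
      Ew q S.F (fun _ => 1) * (6 * q.x * k * √(√m4) * √m8) := by
  have g1 : ∀ c : Fin n, ∀ i, EG fun w => H816.col (S.A q.s1 (P2 q w)) c i := fun c i =>
    eg_P2 (lw_eg S q.s1 i c)
  have g2 : ∀ c : Fin n, ∀ i, EG fun w => H816.col (S.A q.s2 (P3 q w)) c i := fun c i =>
    eg_P3 (lw_eg S q.s2 i c)
  have key : ∀ {W : (K4 (Pair n) → ℝ) → Fin n → ℝ} {c : Fin n}, (c = b ∨ c = b') →
      (W = (fun w => H816.col (S.A q.s1 (P2 q w)) c) ∨
        W = (fun w => H816.col (S.A q.s2 (P3 q w)) c)) →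
      (∀ i, EG fun w => W w i) ∧ ∫ w, ph q S.F b b' w *
        vs (W w) ^ 4 ∂(gI (K4 (Pair n))) ≤ Ew q S.F (fun _ => 1) * m8 := by
    intro W c hc hW
    rcases hW with rfl | rfl
    · exact ⟨g1 c, (h8 b b' hb c hc).1⟩
    · exact ⟨g2 c, (h8 b b' hb c hc).2⟩
  obtain ⟨eU, mU⟩ := key (Or.inl rfl) hU
  obtain ⟨eV, mV⟩ := key (Or.inr rfl) hV
  obtain ⟨eX, mX⟩ := key (Or.inl rfl) hX
  obtain ⟨eY, mY⟩ := key (Or.inr rfl) hY
  have ed : ∀ {X Y : (K4 (Pair n) → ℝ) → Fin n → ℝ}, (∀ i, EG fun w => X w i) →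
      (∀ i, EG fun w => Y w i) → EG fun w => dp (X w) (Y w) :=
    fun h h' => EG.sum _ fun i _ => (h i).mul (h' i)
  exact lam_gen_S_s S hq hl hm4 h4 hb ((ed eU eV).mul (ed eX eY))
    (quart_sq_le (eg_ph_S_s S hq b b') (ph_nonneg_S S b b') eU eV eX eY mU mV mX mY)

end Vale.Agent.P146.R1S
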