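import Vale.Agent.P146.H332.CRow
import Vale.Agent.P146.H797.H826_LawP
import Vale.Agent.P146.H797.OkS

/-!
The results of `H332.CRow` for signed tilts `-1 ≤ θ ≤ 1` (`Par.OkS` in the place of `Par.Ok`).
-/

open MeasureTheory ProbabilityTheory

namespace Vale.Agent.P146.R1C

open Vale.Agent.P157.Lv Vale.Agent.P146.H425 Vale.Agent.P146.H325 Vale.Agent.P146.H332
  Vale.Agent.P146.H712 Vale.Agent.P146.R1 Vale.Agent.P146.H816 Matrix

set_option linter.unusedSectionVars false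

variable {n : ℕ} {k s : ℝ} {A : (Pair n → ℝ) → Matrix (Fin n) (Fin n) ℝ}
  {DA : Pair n → (Pair n → ℝ) → Matrix (Fin n) (Fin n) ℝ}
  {H : Fin n → (Pair n → ℝ) → Matrix (Fin n) (Fin n) ℝ}

/-- **The dictionary, two times.** -/
theorem Av_ad_s {q : Par} (hq : q.OkS) {A1 A2 : (Pair n → ℝ) → Matrix (Fin n) (Fin n) ℝ}
    (h1 : ∀ i j, EG fun z => A1 z i j) (h2 : ∀ i j, EG fun z => A2 z i j) {b b' : Fin n}
    (i j : Fin n) (w : K4 (Pair n) → ℝ) :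
    Av (lf (row b ∪ row b'))
      (fun w => clz A1 q.s1 b b' (P2 q w) i * clz A2 q.s2 b b' (P3 q w) j) w =
      ∫ y, (∫ y', gr A1 q.s1 b b' (P2 q w) i (√q.s1 • y) *
        gr A2 q.s2 b b' (P3 q w) j (√q.s1 • y + √(q.s2 - q.s1) • y') ∂(gI (Fin n)))
          ∂(gI (Fin n)) := by
  have hi : Ind (lf (row b')) fun w : K4 (Pair n) → ℝ =>
      clz A1 q.s1 b b' (P2 q w) i * clz A2 q.s2 b b' (P3 q w) j := by
    intro w w'
    have e1 := ind_clz (A := A1) q.s1 b b' i (P2 q w) (P2 q w')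
    have e2 := ind_clz (A := A2) q.s2 b b' j (P3 q w) (P3 q w')
    simp only at e1 e2
    simp only [P2_sw, P3_sw]
    rw [e1, e2]
  rw [lf_union, Av_union_ind hi]
  exact Av_lf_P23_row_s hq (Φ := fun u v => clz A1 q.s1 b b' u i * clz A2 q.s2 b b' v j)
    (eg_prod (eg_clz h1 q.s1 b b' i) (eg_clz h2 q.s2 b b' j)) b w

/-- the second time -/
theorem Av_dd_s {q : Par} (hq : q.OkS) {A2 : (Pair n → ℝ) → Matrix (Fin n) (Fin n) ℝ}
    (h2 : ∀ i j, EG fun z => A2 z i j) {b b' : Fin n} (i j : Fin n) (w : K4 (Pair n) → ℝ) :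
    Av (lf (row b ∪ row b'))
      (fun w => clz A2 q.s2 b b' (P3 q w) i * clz A2 q.s2 b b' (P3 q w) j) w =
      ∫ y, (∫ y', gr A2 q.s2 b b' (P3 q w) i (√q.s1 • y + √(q.s2 - q.s1) • y') *
        gr A2 q.s2 b b' (P3 q w) j (√q.s1 • y + √(q.s2 - q.s1) • y') ∂(gI (Fin n)))
          ∂(gI (Fin n)) := by
  have hi : Ind (lf (row b')) fun w : K4 (Pair n) → ℝ =>
      clz A2 q.s2 b b' (P3 q w) i * clz A2 q.s2 b b' (P3 q w) j := by
    intro w w'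
    have e1 := ind_clz (A := A2) q.s2 b b' i (P3 q w) (P3 q w')
    have e2 := ind_clz (A := A2) q.s2 b b' j (P3 q w) (P3 q w')
    simp only at e1 e2
    simp only [P3_sw]
    rw [e1, e2]
  rw [lf_union, Av_union_ind hi]
  have he : EG fun w : Pair n ⊕ Pair n → ℝ => clz A2 q.s2 b b' (fun e => w (Sum.inr e)) i *
      clz A2 q.s2 b b' (fun e => w (Sum.inr e)) j := by
    have h3 := eg_prod (κ := Pair n) (EG.const (1 : ℝ))
      ((eg_clz h2 q.s2 b b' i).mul (eg_clz h2 q.s2 b b' j))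
    simpa only [one_mul] using h3
  exact Av_lf_P23_row_s hq (Φ := fun _ v => clz A2 q.s2 b b' v i * clz A2 q.s2 b b' v j) he b w

/-- the first time -/
theorem Av_aa_s {q : Par} (hq : q.OkS) {A1 : (Pair n → ℝ) → Matrix (Fin n) (Fin n) ℝ}
    (h1 : ∀ i j, EG fun z => A1 z i j) {b b' : Fin n} (i j : Fin n) (w : K4 (Pair n) → ℝ) :
    Av (lf (row b ∪ row b'))
      (fun w => clz A1 q.s1 b b' (P2 q w) i * clz A1 q.s1 b b' (P2 q w) j) w =
      ∫ y, gr A1 q.s1 b b' (P2 q w) i (√q.s1 • y) * gr A1 q.s1 b b' (P2 q w) j (√q.s1 • y)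
        ∂(gI (Fin n)) := by
  rw [Av_lf_P2_s hq (f := fun z => clz A1 q.s1 b b' z i * clz A1 q.s1 b b' z j)
    ((eg_clz h1 q.s1 b b' i).mul (eg_clz h1 q.s1 b b' j)), Av_a h1]

section sk

variable {x : ℝ}

lemma Nd_row_s {q : Par} (hq : q.OkS) (b b' i j : Fin n) (w : K4 (Pair n) → ℝ) :
    Nd k q b b' w i j = ∫ y, (∫ y', gr (AA k q.x q.s1) q.s1 b b' (P2 q w) i (√q.s1 • y) *
        gr (AA k q.x q.s2) q.s2 b b' (P3 q w) j (√q.s1 • y + √(q.s2 - q.s1) • y')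
          ∂(gI (Fin n))) ∂(gI (Fin n)) :=
  Av_ad_s hq (fun i j => eg_AA q.s1 i j) (fun i j => eg_AA q.s2 i j) i j w

lemma Sa_row_s {q : Par} (hq : q.OkS) (b b' i j : Fin n) (w : K4 (Pair n) → ℝ) :
    Sa k q b b' w i j = ∫ y, gr (AA k q.x q.s1) q.s1 b b' (P2 q w) i (√q.s1 • y) *
      gr (AA k q.x q.s1) q.s1 b b' (P2 q w) j (√q.s1 • y) ∂(gI (Fin n)) :=
  Av_aa_s hq (fun i j => eg_AA q.s1 i j) i j w

lemma Sd_row_s {q : Par} (hq : q.OkS) (b b' i j : Fin n) (w : K4 (Pair n) → ℝ) :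
    Sd k q b b' w i j =
      ∫ y, (∫ y', gr (AA k q.x q.s2) q.s2 b b' (P3 q w) i (√q.s1 • y + √(q.s2 - q.s1) • y') *
        gr (AA k q.x q.s2) q.s2 b b' (P3 q w) j (√q.s1 • y + √(q.s2 - q.s1) • y')
          ∂(gI (Fin n))) ∂(gI (Fin n)) :=
  Av_dd_s hq (fun i j => eg_AA q.s2 i j) i j w

end sk

end Vale.Agent.P146.R1C
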