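import Vale.Agent.P146.H645.CSys
import Vale.Agent.P146.H332.CRowS
import Vale.Agent.P146.H797.H332_CRow
import Vale.Agent.P146.H797.H826_LawP
import Vale.Agent.P146.H797.OkS

/-!
The results of `H332.CRowS` for signed tilts `-1 ≤ θ ≤ 1` (`Par.OkS` in the place of `Par.Ok`).
-/

open MeasureTheory ProbabilityTheory

namespace Vale.Agent.P146.R1S

open Vale.Agent.P157.Lv Vale.Agent.P146.H425 Vale.Agent.P146.H325 Vale.Agent.P146.H332
  Vale.Agent.P146.H712 Vale.Agent.P146.R1 Vale.Agent.P146.H816 Vale.Agent.P146.R1C Matrix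

set_option linter.unusedSectionVars false

variable {n : ℕ} {k x s : ℝ} (S : CS n k x)

lemma Nd_row_s {q : Par} (hq : q.OkS) (b b' i j : Fin n) (w : K4 (Pair n) → ℝ) :
    Nd S q b b' w i j = ∫ y, (∫ y', gr (S.A q.s1) q.s1 b b' (P2 q w) i (√q.s1 • y) *
        gr (S.A q.s2) q.s2 b b' (P3 q w) j (√q.s1 • y + √(q.s2 - q.s1) • y')
          ∂(gI (Fin n))) ∂(gI (Fin n)) :=
  Av_ad_s hq (fun i j => S.eg_A q.s1 i j) (fun i j => S.eg_A q.s2 i j) i j w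

lemma Sa_row_s {q : Par} (hq : q.OkS) (b b' i j : Fin n) (w : K4 (Pair n) → ℝ) :
    Sa S q b b' w i j = ∫ y, gr (S.A q.s1) q.s1 b b' (P2 q w) i (√q.s1 • y) *
      gr (S.A q.s1) q.s1 b b' (P2 q w) j (√q.s1 • y) ∂(gI (Fin n)) :=
  Av_aa_s hq (fun i j => S.eg_A q.s1 i j) i j w

lemma Sd_row_s {q : Par} (hq : q.OkS) (b b' i j : Fin n) (w : K4 (Pair n) → ℝ) :
    Sd S q b b' w i j =
      ∫ y, (∫ y', gr (S.A q.s2) q.s2 b b' (P3 q w) i (√q.s1 • y + √(q.s2 - q.s1) • y') *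
        gr (S.A q.s2) q.s2 b b' (P3 q w) j (√q.s1 • y + √(q.s2 - q.s1) • y')
          ∂(gI (Fin n))) ∂(gI (Fin n)) :=
  Av_dd_s hq (fun i j => S.eg_A q.s2 i j) i j w

end Vale.Agent.P146.R1S
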