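import Vale.Agent.P146.H325.KapS
import Vale.Agent.P146.H797.H326_PrI
import Vale.Agent.P146.H797.H332_CRow
import Vale.Agent.P146.H797.H332_CRowS
import Vale.Agent.P146.H797.H546_Fw
import Vale.Agent.P146.H797.H546_FwS
import Vale.Agent.P146.H797.H706_LamSum
import Vale.Agent.P146.H797.H706_LawK
import Vale.Agent.P146.H797.H706_LawS
import Vale.Agent.P146.H797.H706_LawT
import Vale.Agent.P146.H797.H712_Pos
import Vale.Agent.P146.H797.H816_SkN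
import Vale.Agent.P146.H797.H816_SkT
import Vale.Agent.P146.H797.H826_LawP
import Vale.Agent.P146.H797.H941_PrIS
import Vale.Agent.P146.H797.H941_SkTS
import Vale.Agent.P146.H797.OkS

/-!
The results of `H325.KapS` for signed tilts `-1 ≤ θ ≤ 1` (`Par.OkS` in the place of `Par.Ok`).
-/

open MeasureTheory ProbabilityTheory

namespace Vale.Agent.P146.R1S

open Vale.Agent.P157.Lv Vale.Agent.P146.H425 Vale.Agent.P146.H325
  Vale.Agent.P146.H712 Vale.Agent.P146.R1 Vale.Agent.P146.R1C Matrix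
open Vale.Agent.P146.H332 hiding Nf Gf

set_option linter.unusedSectionVars false

section gen

variable {n : ℕ} {k x : ℝ} {S : CS n k x} {q : Par}

/-- `fr (N - N')`, `N = E a d'`, against the sizes of the two positions -/
lemma nd_anti_s (hq : q.OkS) (hs1 : 0 < q.s1) (b b' : Fin n) (w : K4 (Pair n) → ℝ) :
    fr (Nd S q b b' w - (Nd S q b b' w)ᵀ) ≤ 4 * k ^ 4 *
      (Av (lf (row b ∪ row b')) (fun w => fr (S.A q.s1 (P2 q w))) w *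
        Av (lf (row b ∪ row b')) (fun w => fr (S.A q.s2 (P3 q w))) w) := by
  have hs2 : 0 < q.s2 := hs1.trans_le hq.h12
  have e1 : q.s1 ≤ 1 := hq.h12.trans hq.h2
  have h1 := anti_le (Nd S q b b' w)
  have h2 : fr (Nd S q b b' w) ≤
      Av (lf (row b ∪ row b')) (fun w => ∑ i, Ca S q b b' w i ^ 2) w *
        Av (lf (row b ∪ row b')) (fun w => ∑ i, Cd S q b b' w i ^ 2) w :=
    mixed_le (u := fun w => Ca S q b b' w) (v := fun w => Cd S q b b' w)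
      (fun i => eg_Ca S q b b' i) (fun i => eg_Cd S q b b' i) _ w
  have ha : Av (lf (row b ∪ row b')) (fun w => ∑ i, Ca S q b b' w i ^ 2) w =
      ee S q.s1 b b' (P2 q w) :=
    Av_lf_P2_s hq (f := fun z => ∑ i, cl0 S q.s1 b b' z i ^ 2)
      (EG.sum _ fun i _ => (eg_cl0 S q.s1 b b' i).pow 2) _ w
  have hd : Av (lf (row b ∪ row b')) (fun w => ∑ i, Cd S q b b' w i ^ 2) w =
      ee S q.s2 b b' (P3 q w) :=
    Av_lf_P3_s hq (f := fun z => ∑ i, cl0 S q.s2 b b' z i ^ 2)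
      (EG.sum _ fun i _ => (eg_cl0 S q.s2 b b' i).pow 2) _ w
  have eA : ∀ s, EG fun z => fr (S.A s z) := fun s => by
    unfold fr
    exact EG.sum _ fun i _ => EG.sum _ fun j _ => (S.eg_A s i j).pow 2
  have fa : Av (lf (row b ∪ row b')) (fun w => fr (S.A q.s1 (P2 q w))) w =
      AvP q.s1 (row b ∪ row b') (fun z => fr (S.A q.s1 z)) (P2 q w) :=
    Av_lf_P2_s hq (eA q.s1) _ w
  have fd : Av (lf (row b ∪ row b')) (fun w => fr (S.A q.s2 (P3 q w))) w =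
      AvP q.s2 (row b ∪ row b') (fun z => fr (S.A q.s2 z)) (P3 q w) :=
    Av_lf_P3_s hq (eA q.s2) _ w
  have g1 := ee_le (S := S) hs1 b b' (P2 q w)
  have g2 := ee_le (S := S) hs2 b b' (P3 q w)
  rw [ha, hd] at h2
  rw [fa, fd]
  set X1 := AvP q.s1 (row b ∪ row b') (fun z => fr (S.A q.s1 z)) (P2 q w)
  set X2 := AvP q.s2 (row b ∪ row b') (fun z => fr (S.A q.s2 z)) (P3 q w)
  have x1 : 0 ≤ X1 := AvP_nonneg (fun _ => H332.fr_nonneg _) _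
  have x2 : 0 ≤ X2 := AvP_nonneg (fun _ => H332.fr_nonneg _) _
  have hk : 0 ≤ k ^ 2 := sq_nonneg k
  have y1 : ee S q.s1 b b' (P2 q w) ≤ k ^ 2 * X1 := by
    refine g1.trans (mul_le_mul_of_nonneg_right ?_ x1)
    exact mul_le_of_le_one_left hk e1
  have y2 : ee S q.s2 b b' (P3 q w) ≤ k ^ 2 * X2 := by
    refine g2.trans (mul_le_mul_of_nonneg_right ?_ x2)
    exact mul_le_of_le_one_left hk hq.h2
  have y3 : ee S q.s1 b b' (P2 q w) * ee S q.s2 b b' (P3 q w) ≤ (k ^ 2 * X1) * (k ^ 2 * X2) :=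
    mul_le_mul y1 y2 (ee_nonneg b b' _) (by positivity)
  calc fr (Nd S q b b' w - (Nd S q b b' w)ᵀ) ≤ 4 * ((k ^ 2 * X1) * (k ^ 2 * X2)) := by
        linarith
    _ = _ := by ring

/-- **One bulk, the fixed bulk inequality for all `c` put together.** -/
theorem kap_bulk_s (hq : q.OkS) (hs1 : 0 < q.s1) {b b' : Fin n} (hb : b ≠ b')
    (w : K4 (Pair n) → ℝ) {v : Fin n → ℝ} (hv : ∑ i, v i ^ 2 = 1)
    {α0 α1 δ0 δ1 ε0 ε1 κ' bad Er : ℝ}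
    (hα0 : 0 ≤ α0) (hα1 : 0 ≤ α1) (hδ0 : 0 ≤ δ0) (hδ1 : 0 ≤ δ1) (hε0 : 0 ≤ ε0) (hε1 : 0 ≤ ε1)
    (ha0 : ee S q.s1 b b' (P2 q w) ≤ α0 ^ 2)
    (ha1 : Na1 k (S.A q.s1) (S.H q.s1) q.s1 b b' (P2 q w) ≤ α1 ^ 2)
    (hd0 : ee S q.s2 b b' (P3 q w) ≤ δ0 ^ 2)
    (hd1 : Na1 k (S.A q.s2) (S.H q.s2) q.s2 b b' (P3 q w) ≤ δ1 ^ 2)
    (he0 : Ne0 k (S.H q.s1) q.s1 b b' v (P2 q w) ≤ ε0 ^ 2)
    (he1 : Ne1 k (S.H q.s1) q.s1 b b' v (P2 q w) ≤ ε1 ^ 2)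
    (hκ : 0 ≤ κ') (hκ1 : κ' ≤ 1) (hbad : 0 ≤ bad)
    (hN0 : 0 ≤ Net k (S.A q.s1) (S.H q.s1) q.s1 b b' v (P2 q w))
    (hK : bad < 1 → κ' * ee S q.s1 b b' (P2 q w) ≤
      Net k (S.A q.s1) (S.H q.s1) q.s1 b b' v (P2 q w))
    (hEr : κ' * ((ε0 ^ 2 + ε1 ^ 2) * δ0 ^ 2) +
      6 * ((ε0 * δ1 + ε1 * δ0) * (α0 * δ1 + α1 * δ0)) ≤ Er) :
    κ' / 8 * (1 - bad) * fr (Nd S q b b' w - (Nd S q b b' w)ᵀ) ≤ Gb S q b b' w + Er := by
  refine kap_point (P := ee S q.s1 b b' (P2 q w)) (E := Net k (S.A q.s1) (S.H q.s1) q.s1 b b' v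
    (P2 q w)) (α := ee S q.s1 b b' (P2 q w)) (X1 := (ε0 ^ 2 + ε1 ^ 2) * δ0 ^ 2)
    (X2 := 6 * ((ε0 * δ1 + ε1 * δ0) * (α0 * δ1 + α1 * δ0))) (H332.fr_nonneg _) hN0 le_rfl hκ hκ1
    hbad (by positivity) ?_ hK hEr
  intro c hc _ hca
  exact fb_cs_s S hq hs1 hb w hv hc hα0 hα1 hδ0 hδ1 hε0 hε1 hca ha0 ha1 hd0 hd1 he0 he1

end gen

section num

variable {n : ℕ} {β A δ T ρ : ℝ} {q : Par} {S : CS n (kk n β) q.x}

end num

end Vale.Agent.P146.R1S
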