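import Vale.Agent.P146.H632.LamD
import Vale.Agent.P146.H797.H332_CRow
import Vale.Agent.P146.H797.H826_LawP
import Vale.Agent.P146.H797.OkS

/-!
The results of `H632.LamD` for signed tilts `-1 ≤ θ ≤ 1` (`Par.OkS` in the place of `Par.Ok`).
-/

open MeasureTheory ProbabilityTheory

set_option linter.unusedSectionVars false

namespace Vale.Agent.P146.H632

open Vale.Agent.P157.Lv Vale.Agent.P146.H425 Vale.Agent.P146.H325 Vale.Agent.P146.R1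
  Vale.Agent.P146.H712 Vale.Agent.P146.R1C Vale.Agent.P146.H332 Matrix

variable {n : ℕ} {k s : ℝ} {A : (Pair n → ℝ) → Matrix (Fin n) (Fin n) ℝ}
  {DA : Pair n → (Pair n → ℝ) → Matrix (Fin n) (Fin n) ℝ}
  {H : Fin n → (Pair n → ℝ) → Matrix (Fin n) (Fin n) ℝ}

/-- **(LAM), fixed bulk, any model.** -/
theorem lam_row_s {q : Par} {A1 A2 : (Pair n → ℝ) → Matrix (Fin n) (Fin n) ℝ}
    {DA1 DA2 : Pair n → (Pair n → ℝ) → Matrix (Fin n) (Fin n) ℝ}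
    {H1 H2 : Fin n → (Pair n → ℝ) → Matrix (Fin n) (Fin n) ℝ} (hq : q.OkS) (hs : 0 < q.s1)
    (h1 : RowIn k A1 DA1 H1) (h2 : RowIn k A2 DA2 H2) {b b' : Fin n} (hb : b ≠ b')
    (w : K4 (Pair n) → ℝ) :
    (q.s2 - q.s1) / (2 * q.s1) * ∑ i, ∑ j, (Av (lf (row b ∪ row b'))
      (fun w => clz A1 q.s1 b b' (P2 q w) i * clz A2 q.s2 b b' (P3 q w) j) w) ^ 2 ≤
    ∑ i, ∑ j, (Av (lf (row b ∪ row b'))
        (fun w => clz A1 q.s1 b b' (P2 q w) i * clz A1 q.s1 b b' (P2 q w) j) w *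
      Av (lf (row b ∪ row b'))
        (fun w => clz A2 q.s2 b b' (P3 q w) i * clz A2 q.s2 b b' (P3 q w) j) w -
      (Av (lf (row b ∪ row b'))
        (fun w => clz A1 q.s1 b b' (P2 q w) i * clz A2 q.s2 b b' (P3 q w) j) w) ^ 2) +
    2 * (q.s2 / q.s1) * (eer A1 q.s1 b b' (P2 q w) * (q.s2 * k ^ 2 * hvr H2 q.s2 b b' (P3 q w)) +
      (q.s1 * k ^ 2 * hvr H1 q.s1 b b' (P2 q w)) * eer A2 q.s2 b b' (P3 q w)) := by
  have hs2 : 0 < q.s2 := lt_of_lt_of_le hs hq.h12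
  set ea := eer A1 q.s1 b b' (P2 q w) with hea
  set ed := eer A2 q.s2 b b' (P3 q w) with hed
  set na := q.s1 * k ^ 2 * hvr H1 q.s1 b b' (P2 q w) with hna
  set nd := q.s2 * k ^ 2 * hvr H2 q.s2 b b' (P3 q w) with hnd
  have pea : 0 ≤ ea := eer_nonneg b b' _
  have ped : 0 ≤ ed := eer_nonneg b b' _
  have pna : 0 ≤ na := mul_nonneg (mul_nonneg hs.le (sq_nonneg k)) (hvr_nonneg b b' _)
  have pnd : 0 ≤ nd := mul_nonneg (mul_nonneg hs2.le (sq_nonneg k)) (hvr_nonneg b b' _)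
  have v1 : q.s1 * ∑ i, ∑ j, ∫ y, (kr k H1 q.s1 b b' (P2 q w) i j (√q.s1 • y) -
      ∫ y, kr k H1 q.s1 b b' (P2 q w) i j (√q.s1 • y) ∂(gI (Fin n))) ^ 2 ∂(gI (Fin n)) ≤ na := by
    rw [hna, mul_assoc]
    refine mul_le_mul_of_nonneg_left ?_ hs.le
    unfold hvr
    rw [Finset.mul_sum]
    refine Finset.sum_le_sum fun i _ => ?_
    rw [Finset.mul_sum]
    exact Finset.sum_le_sum fun j _ => kr_var_le h1.egH b b' _ i j
  have v2 : q.s2 * ∑ i, ∑ j, ∫ y, (kr k H2 q.s2 b b' (P3 q w) i j (√q.s2 • y) -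
      ∫ y, kr k H2 q.s2 b b' (P3 q w) i j (√q.s2 • y) ∂(gI (Fin n))) ^ 2 ∂(gI (Fin n)) ≤ nd := by
    rw [hnd, mul_assoc]
    refine mul_le_mul_of_nonneg_left ?_ hs2.le
    unfold hvr
    rw [Finset.mul_sum]
    refine Finset.sum_le_sum fun i _ => ?_
    rw [Finset.mul_sum]
    exact Finset.sum_le_sum fun j _ => kr_var_le h2.egH b b' _ i j
  have key := lam_ogf (ogf_row h1 hb q.s1 (P2 q w)) (ogf_row h2 hb q.s2 (P3 q w)) hs hq.h12
    (Real.sqrt_nonneg ea) (Real.sqrt_nonneg na) (Real.sqrt_nonneg ed) (Real.sqrt_nonneg nd)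
    (by rw [Real.sq_sqrt pea, hea, eer_row h1.egA])
    (by rw [Real.sq_sqrt pna]; exact v1)
    (by rw [Real.sq_sqrt ped, hed, eer_row h2.egA])
    (by rw [Real.sq_sqrt pnd]; exact v2)
  have e1 : ∀ i j, Nw q.s1 q.s2 (gr A1 q.s1 b b' (P2 q w) i) (gr A2 q.s2 b b' (P3 q w) j) =
      Av (lf (row b ∪ row b'))
        (fun w => clz A1 q.s1 b b' (P2 q w) i * clz A2 q.s2 b b' (P3 q w) j) w := by
    intro i j
    rw [Av_ad_s hq h1.egA h2.egA]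
    rfl
  have e2 : ∀ i j, ∫ y, gr A1 q.s1 b b' (P2 q w) i (√q.s1 • y) *
      gr A1 q.s1 b b' (P2 q w) j (√q.s1 • y) ∂(gI (Fin n)) = Av (lf (row b ∪ row b'))
        (fun w => clz A1 q.s1 b b' (P2 q w) i * clz A1 q.s1 b b' (P2 q w) j) w :=
    fun i j => (Av_aa_s hq h1.egA i j w).symm
  have e3 : ∀ i j, ∫ y, gr A2 q.s2 b b' (P3 q w) i (√q.s2 • y) *
      gr A2 q.s2 b b' (P3 q w) j (√q.s2 • y) ∂(gI (Fin n)) = Av (lf (row b ∪ row b'))
        (fun w => clz A2 q.s2 b b' (P3 q w) i * clz A2 q.s2 b b' (P3 q w) j) w := by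
    intro i j
    rw [Av_lf_P3_s hq (f := fun z => clz A2 q.s2 b b' z i * clz A2 q.s2 b b' z j)
      ((eg_clz h2.egA q.s2 b b' i).mul (eg_clz h2.egA q.s2 b b' j)), Av_a h2.egA]
  simp only [e1, e2, e3] at key
  refine key.trans ?_
  have e4 : (√ea * √nd + √na * √ed) ^ 2 ≤ 2 * (ea * nd + na * ed) := by
    have r1 : (√ea * √nd) ^ 2 = ea * nd := by rw [mul_pow, Real.sq_sqrt pea, Real.sq_sqrt pnd]
    have r2 : (√na * √ed) ^ 2 = na * ed := by rw [mul_pow, Real.sq_sqrt pna, Real.sq_sqrt ped]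
    nlinarith [sq_nonneg (√ea * √nd - √na * √ed)]
  have e5 := mul_le_mul_of_nonneg_left e4 (div_pos hs2 hs).le
  linarith

end Vale.Agent.P146.H632
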