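import Vale.Agent.P146.H816.SkN
import Vale.Agent.P146.H797.H326_PrI
import Vale.Agent.P146.H797.H706_LamSum
import Vale.Agent.P146.H797.H706_LawK
import Vale.Agent.P146.H797.H706_LawS
import Vale.Agent.P146.H797.H712_Pos
import Vale.Agent.P146.H797.H816_SkT
import Vale.Agent.P146.H797.H826_LawP
import Vale.Agent.P146.H797.OkS

/-!
The results of `H816.SkN` for signed tilts `-1 ≤ θ ≤ 1` (`Par.OkS` in the place of `Par.Ok`).
-/

open MeasureTheory ProbabilityTheory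

namespace Vale.Agent.P146.R1C

open Vale.Agent.P157.Lv Vale.Agent.P146.H425 Vale.Agent.P146.H325 Vale.Agent.P146.H332
  Vale.Agent.P146.H712 Vale.Agent.P146.H816 Vale.Agent.P146.R1 Vale.Agent.P146.H326 Matrix

set_option linter.unusedSectionVars false

variable {n : ℕ} {β A δ T ρ ε : ℝ} {q : Par}

lemma k0_sum_s (hq : q.OkS) : k0 q 0 ^ 2 + k0 q 1 ^ 2 + k0 q 2 ^ 2 + k0 q 3 ^ 2 = q.t0 := by
  have h0 := Real.sq_sqrt hq.h0
  show (√q.t0) ^ 2 + (0 : ℝ) ^ 2 + (0 : ℝ) ^ 2 + (0 : ℝ) ^ 2 = q.t0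
  rw [h0]
  ring

lemma k1_sum_s (hq : q.OkS) : k1 q 0 ^ 2 + k1 q 1 ^ 2 + k1 q 2 ^ 2 + k1 q 3 ^ 2 = q.t1 := by
  have h0 := Real.sq_sqrt hq.h0
  have h1 := Real.sq_sqrt (sub_nonneg.2 hq.h01)
  show (√q.t0) ^ 2 + (√(q.t1 - q.t0)) ^ 2 + (0 : ℝ) ^ 2 + (0 : ℝ) ^ 2 = q.t1
  rw [h0, h1]
  ring

section mom

variable (h : NumH n β A δ T ρ ε q)
include h

end mom

end Vale.Agent.P146.R1C
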