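import Vale.Agent.P146.H640.LamSk
import Vale.Agent.P146.H797.H326_PrI
import Vale.Agent.P146.H797.H332_CRow
import Vale.Agent.P146.H797.H332_CRowS
import Vale.Agent.P146.H797.H632_LamD
import Vale.Agent.P146.H797.H632_LamE
import Vale.Agent.P146.H797.H706_LamSum
import Vale.Agent.P146.H797.H706_LawK
import Vale.Agent.P146.H797.H706_LawS
import Vale.Agent.P146.H797.H712_Pos
import Vale.Agent.P146.H797.H816_SkN
import Vale.Agent.P146.H797.H816_SkT
import Vale.Agent.P146.H797.H826_LawP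
import Vale.Agent.P146.H797.H941_SkTS
import Vale.Agent.P146.H797.OkS

/-!
The results of `H640.LamSk` for signed tilts `-1 ≤ θ ≤ 1` (`Par.OkS` in the place of `Par.Ok`).
-/

open MeasureTheory ProbabilityTheory

namespace Vale.Agent.P146.R1S

open Vale.Agent.P157.Lv Vale.Agent.P146.H425 Vale.Agent.P146.H325
  Vale.Agent.P146.H712 Vale.Agent.P146.R1 Vale.Agent.P146.R1C Vale.Agent.P146.H632 Matrix
open Vale.Agent.P146.H332 hiding Nf Gf NN fr_nonneg

set_option linter.unusedSectionVars false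

variable {n : ℕ} {k x s : ℝ} {S : CS n k x} {q : Par}

/-- the inequality on a fixed bulk -/
theorem nlb_fix_s (S : CS n k x) (hq : q.OkS) (hs : 0 < q.s1) (b b' : Fin n) (hb : b' ≠ b)
    (w : K4 (Pair n) → ℝ) : (q.s2 - q.s1) / (2 * q.s1) * fr (Nd S q b b' w) ≤
      Gb S q b b' w + 2 * (q.s2 / q.s1) * nlb S q b b' w := by
  have hs2 : 0 < q.s2 := lt_of_lt_of_le hs hq.h12
  have h := lam_fix_s (S := S) hq hs (rowIn_S S hs) (rowIn_S S hs2) (Ne.symm hb) w
  rw [← vH_hvr hs, ← vH_hvr hs2] at h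
  unfold nlb
  linarith

end Vale.Agent.P146.R1S

namespace Vale.Agent.P146.R1C

open Vale.Agent.P157.Lv Vale.Agent.P146.H425 Vale.Agent.P146.H325
  Vale.Agent.P146.H712 Vale.Agent.P146.R1 Matrix
open Vale.Agent.P146.H332 hiding Nf Gf NN fr_nonneg

set_option linter.unusedSectionVars false

end Vale.Agent.P146.R1C
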