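import Vale.Agent.P146.H706.D4b
import Vale.Agent.P146.H797.OkS

/-!
The results of `H706.D4b` for signed tilts `-1 ≤ θ ≤ 1` (`Par.OkS` in the place of `Par.Ok`).
-/

open MeasureTheory ProbabilityTheory

namespace Vale.Agent.P146.R1

open Vale.Agent.P157.Lv Vale.Agent.P146.H425
open Vale.Agent.P146.H785 (Ax)

set_option linter.unusedSectionVars false

variable {κ : Type} [Fintype κ] {F G : (κ → ℝ) → ℝ} {D D' : κ → (κ → ℝ) → ℝ}
  {B B' L L' x θ t0 t1 s c : ℝ}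

/-- the densities, signed tilt -/
lemma dn_comp_s (h : C11 F D B L) (h' : C11 G D' B' L') (hx : 0 < x)
    (h0 : ∀ z, F z ≤ G z) (h1 : ∀ z, G z ≤ F z + c) (t0 t1 s : ℝ) (z0 z1 z2 : κ → ℝ) :
    Real.exp (-(|θ| * x * c)) * dn x θ t0 t1 s F z0 z1 z2 ≤ dn x θ t0 t1 s G z0 z1 z2 ∧
      dn x θ t0 t1 s G z0 z1 z2 ≤ Real.exp ((1 + |θ|) * x * c) * dn x θ t0 t1 s F z0 z1 z2 := by
  obtain ⟨a0, a1⟩ := uu_comp h h' hx h0 h1 t0 z0
  obtain ⟨b0, b1⟩ := uu_comp h h' hx h0 h1 t1 z1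
  obtain ⟨c0, c1⟩ := uu_comp h h' hx h0 h1 s z2
  set A := uu x t0 G z0 - uu x t0 F z0 with hA
  set B1 := uu x t1 G z1 - uu x t1 F z1 with hB
  set C := uu x s G z2 - uu x s F z2 with hC
  have e : x * uu x s G z2 + θ * (x * (uu x t1 G z1 - uu x t0 G z0)) =
      x * uu x s F z2 + θ * (x * (uu x t1 F z1 - uu x t0 F z0)) + x * (C + θ * (B1 - A)) := by
    rw [hA, hB, hC]; ring
  have hAB : |B1 - A| ≤ c := abs_le.2 ⟨by linarith, by linarith⟩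
  have h3 : |θ * (B1 - A)| ≤ |θ| * c := by
    rw [abs_mul]
    exact mul_le_mul_of_nonneg_left hAB (abs_nonneg θ)
  obtain ⟨h4, h5⟩ := abs_le.1 h3
  unfold dn xi
  rw [e, ← Real.exp_add, ← Real.exp_add]
  constructor
  · apply Real.exp_le_exp.2
    nlinarith [mul_le_mul_of_nonneg_left h4 hx.le, mul_nonneg hx.le (by linarith : 0 ≤ C)]
  · apply Real.exp_le_exp.2
    nlinarith [mul_le_mul_of_nonneg_left h5 hx.le,
      mul_le_mul_of_nonneg_left (by linarith : C ≤ c) hx.le]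

/-- **Comparison of the laws, signed tilt.** -/
theorem Et_comp_s {Ψ : (κ → ℝ) → (κ → ℝ) → (κ → ℝ) → ℝ} (h : C11 F D B L)
    (h' : C11 G D' B' L') (hx : 0 < x) (h0 : ∀ z, F z ≤ G z)
    (h1 : ∀ z, G z ≤ F z + c) (hΨ : E3 Ψ) (hΨ0 : ∀ z0 z1 z2, 0 ≤ Ψ z0 z1 z2) :
    Et x θ t0 t1 s G Ψ ≤ Real.exp ((1 + 2 * |θ|) * x * c) * Et x θ t0 t1 s F Ψ := by
  have k1 : Eu x θ t0 t1 s G Ψ ≤ Real.exp ((1 + |θ|) * x * c) * Eu x θ t0 t1 s F Ψ := by
    unfold Eu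
    rw [← integral_const_mul]
    refine integral_mono (eg_Eu h' hx hΨ θ t0 t1 s).integrable
      ((eg_Eu h hx hΨ θ t0 t1 s).const_mul _).integrable fun w => ?_
    simp only
    rw [← mul_assoc]
    exact mul_le_mul_of_nonneg_right (dn_comp_s h h' hx h0 h1 _ _ _ _ _ _).2 (hΨ0 _ _ _)
  have k2 : Real.exp (-(|θ| * x * c)) * Eu x θ t0 t1 s F (fun _ _ _ => 1) ≤
      Eu x θ t0 t1 s G (fun _ _ _ => 1) := by
    unfold Eu
    rw [← integral_const_mul]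
    refine integral_mono ((eg_Eu h hx (E3.const 1) θ t0 t1 s).const_mul _).integrable
      (eg_Eu h' hx (E3.const 1) θ t0 t1 s).integrable fun w => ?_
    simp only
    rw [← mul_assoc]
    exact mul_le_mul_of_nonneg_right (dn_comp_s h h' hx h0 h1 _ _ _ _ _ _).1 zero_le_one
  have p1 := Eu_one_pos (θ := θ) (t0 := t0) (t1 := t1) (s := s) h hx
  have p2 := Eu_one_pos (θ := θ) (t0 := t0) (t1 := t1) (s := s) h' hx
  have p3 : 0 ≤ Eu x θ t0 t1 s F Ψ := Eu_nonneg hΨ0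
  unfold Et
  rw [div_le_iff₀ p2]
  have e : Real.exp ((1 + |θ|) * x * c) =
      Real.exp ((1 + 2 * |θ|) * x * c) * Real.exp (-(|θ| * x * c)) := by
    rw [← Real.exp_add]
    congr 1
    ring
  calc Eu x θ t0 t1 s G Ψ ≤ Real.exp ((1 + |θ|) * x * c) * Eu x θ t0 t1 s F Ψ := k1
    _ = Real.exp ((1 + 2 * |θ|) * x * c) *
        (Eu x θ t0 t1 s F Ψ / Eu x θ t0 t1 s F (fun _ _ _ => 1)) *
        (Real.exp (-(|θ| * x * c)) * Eu x θ t0 t1 s F (fun _ _ _ => 1)) := by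
          rw [e]
          field_simp
    _ ≤ _ := mul_le_mul_of_nonneg_left k2 (by positivity)

section en

variable [DecidableEq κ] {q : R1C.Par} {φ : (κ → ℝ) → ℝ}

lemma En_two_s (h : C11 F D B L) (hq : q.OkS) {ψ : (κ → ℝ) → ℝ} (hψ : EG ψ) :
    R1C.En q F (fun w => ψ (R1C.P2 q w)) =
      R1.Et q.x q.θ q.t0 q.t1 q.s1 F (fun _ _ z2 => ψ z2) :=
  (R1C.En_eq q F fun _ _ z2 _ => ψ z2).trans (Et4_123 h hq.x0 (E3.of2 hψ) hq.h12 hq.h2)

lemma En_three_s (h : C11 F D B L) (hq : q.OkS) {ψ : (κ → ℝ) → ℝ} (hψ : EG ψ) :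
    R1C.En q F (fun w => ψ (R1C.P3 q w)) =
      R1.Et q.x q.θ q.t0 q.t1 q.s2 F (fun _ _ z2 => ψ z2) :=
  (R1C.En_eq q F fun _ _ _ z3 => ψ z3).trans (Et4_124 h hq.x0 (E3.of2 hψ) hq.h1 hq.h12)

/-- the endpoint seen from the time `s1` -/
theorem En_end2_s (h : C11 F D B L) (hq : q.OkS) (hφ : EG φ) :
    R1C.En q F (fun w => Ax q.x (√(1 - q.s1)) F φ (R1C.P2 q w)) =
      Et q.x q.θ q.t0 q.t1 1 F (fun _ _ z => φ z) := by
  rw [En_two_s h hq (eg_Ax h hφ _ _), Et_end h hq.x0 hφ hq.h1 (hq.h12.trans hq.h2)]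

/-- the endpoint seen from the time `s2` -/
theorem En_end3_s (h : C11 F D B L) (hq : q.OkS) (hφ : EG φ) :
    R1C.En q F (fun w => Ax q.x (√(1 - q.s2)) F φ (R1C.P3 q w)) =
      Et q.x q.θ q.t0 q.t1 1 F (fun _ _ z => φ z) := by
  rw [En_three_s h hq (eg_Ax h hφ _ _), Et_end h hq.x0 hφ (hq.h1.trans hq.h12) hq.h2]

end en

end Vale.Agent.P146.R1
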