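import Vale.Agent.P146.H706.D4c
import Vale.Agent.P146.H797.H706_D4b
import Vale.Agent.P146.H797.OkS

/-!
The results of `H706.D4c` for signed tilts `-1 ≤ θ ≤ 1` (`Par.OkS` in the place of `Par.Ok`).
-/

open MeasureTheory ProbabilityTheory

namespace Vale.Agent.P146.R1

open Vale.Agent.P157.Lv Vale.Agent.P146.H425
open Vale.Agent.P146.H785 (Ax)

set_option linter.unusedSectionVars false

variable {κ : Type} [Fintype κ] {F : (κ → ℝ) → ℝ} {D : κ → (κ → ℝ) → ℝ} {B L : ℝ}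

/-- **The second differences under the law of the dressed functional, seen from the times `s1`
and `s2`.** -/
theorem d4_law_s [DecidableEq κ] {ι : Type} [Fintype ι]
    (h : C11 F D B L) {V : (κ → ℝ) → ℝ} {DV : κ → (κ → ℝ) → ℝ} {BV LV c : ℝ}
    (hV : C11 V DV BV LV) (h0 : ∀ z, F z ≤ V z) (h1 : ∀ z, V z ≤ F z + c)
    {G : ι → (κ → ℝ) → ℝ} (hG : ∀ b, EG (G b)) (hG0 : ∀ b z, 0 ≤ G b z) {q : R1C.Par}
    (hq : q.OkS) {K : ℝ} (hc : (1 + 2 * |q.θ|) * q.x * c ≤ 1)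
    (hK : (∑ b, Et q.x q.θ q.t0 q.t1 1 F (fun _ _ z => G b z)) / Fintype.card ι ≤ K) :
    (∑ b, R1C.En q V fun w => Ax q.x (√(1 - q.s1)) V (G b) (R1C.P2 q w)) / Fintype.card ι ≤
        3 * K ∧
      (∑ b, R1C.En q V fun w => Ax q.x (√(1 - q.s2)) V (G b) (R1C.P3 q w)) / Fintype.card ι ≤
        3 * K := by
  have key : ∀ b, Et q.x q.θ q.t0 q.t1 1 V (fun _ _ z => G b z) ≤
      3 * Et q.x q.θ q.t0 q.t1 1 F (fun _ _ z => G b z) := by
    intro b
    refine (Et_comp_s h hV hq.x0 h0 h1 (E3.of2 (hG b)) fun _ _ z => hG0 b z).trans ?_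
    refine mul_le_mul_of_nonneg_right ?_ (Et_nonneg h hq.x0 fun _ _ z => hG0 b z)
    calc Real.exp ((1 + 2 * |q.θ|) * q.x * c) ≤ Real.exp 1 := Real.exp_le_exp.2 hc
      _ ≤ 3 := Real.exp_one_lt_d9.le.trans (by norm_num)
  have fin : (∑ b, Et q.x q.θ q.t0 q.t1 1 V (fun _ _ z => G b z)) / Fintype.card ι ≤ 3 * K := by
    calc (∑ b, Et q.x q.θ q.t0 q.t1 1 V (fun _ _ z => G b z)) / Fintype.card ι
        ≤ (∑ b, 3 * Et q.x q.θ q.t0 q.t1 1 F (fun _ _ z => G b z)) / Fintype.card ι :=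
          div_le_div_of_nonneg_right (Finset.sum_le_sum fun b _ => key b) (Nat.cast_nonneg _)
      _ = 3 * ((∑ b, Et q.x q.θ q.t0 q.t1 1 F (fun _ _ z => G b z)) / Fintype.card ι) := by
          rw [← Finset.mul_sum, mul_div_assoc]
      _ ≤ 3 * K := mul_le_mul_of_nonneg_left hK (by norm_num)
  constructor
  · simp only [En_end2_s hV hq (hG _)]
    exact fin
  · simp only [En_end3_s hV hq (hG _)]
    exact fin

end Vale.Agent.P146.R1
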